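import Vale.Agent.P097.Trig.Residue

/-!
The formal orbit series of a one-sided trigonometric billiard does not exist.
-/

noncomputable section

namespace Vale.Agent.P097.Trig

open PowerSeries Finset

variable {A : Type*} [CommRing A]

theorem pow_mul_eq_of_annihilated {z u v : A} (h : z * u = z * v) (k : ℕ) : z * u ^ k = z * v ^ k := by
  induction k with
  | zero => simp
  | succ n ih => linear_combination u * ih + v ^ n * h

/-- First variation of one side of the equation. -/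
theorem side_congr {j N : ℕ} (hj : 1 ≤ j) (a : ℕ → A) (x x' b : A) (P Q P0 Q0 : A⟦X⟧)
    (h0 : constantCoeff P0 = 1) (hPQ : P * Q = 1) (hPQ0 : P0 * Q0 = 1)
    (h : X ^ (j + 1) ∣ P - (P0 + C b * X ^ j)) :
    X ^ (j + 1) ∣ side N a x x' P Q -
      (side N a x x' P0 Q0 + C (b * ((x' - x) * (1 - (x ^ 2) ^ j))) * X ^ j) := by
  set I : Ideal A⟦X⟧ := Ideal.span {X ^ (j + 1)} with hI
  have key : ∀ {f g : A⟦X⟧}, X ^ (j + 1) ∣ f - g ↔ Ideal.Quotient.mk I f = Ideal.Quotient.mk I g :=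
    fun {f g} => by rw [Ideal.Quotient.eq, hI, Ideal.mem_span_singleton]
  rw [key] at h ⊢
  set m := Ideal.Quotient.mk I with hm
  set y := m (X ^ j) with hy
  set c := m (C b) with hc
  set w := x ^ 2 with hw
  have hXy : ∀ l : ℕ, 1 ≤ l → m (X ^ l) * y = 0 := fun l hl => by
    rw [hy, ← map_mul, ← pow_add, hm, Ideal.Quotient.eq_zero_iff_mem, hI, Ideal.mem_span_singleton]
    exact pow_dvd_pow _ (by omega)
  have hy2 : y * y = 0 := hXy j hj
  have one : ∀ f : A⟦X⟧, constantCoeff f = 1 → m f * y = y := by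
    intro f hf
    obtain ⟨g, hg⟩ : X ∣ f - 1 := by rw [X_dvd_iff]; simp [hf]
    rw [eq_add_of_sub_eq hg, map_add, map_one, map_mul, add_mul, one_mul, mul_right_comm,
      ← pow_one (X : A⟦X⟧), hXy 1 le_rfl, zero_mul, zero_add]
  have hq0 : constantCoeff Q0 = 1 := by
    have := congrArg constantCoeff hPQ0; rwa [map_mul, h0, one_mul, map_one] at this
  have hP : m P = m P0 + c * y := by rw [h, map_add, map_mul]
  have hQ : m Q = m Q0 - c * y := by
    have e1 : m P * m Q = 1 := by rw [← map_mul, hPQ, map_one]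
    have e2 : m P0 * m Q0 = 1 := by rw [← map_mul, hPQ0, map_one]
    have e3 := one P0 h0
    have e4 := one Q0 hq0
    rw [hP] at e1
    linear_combination (m Q0 - c * y) * e1 - m Q * (e2 + c * e4 - c * e3 - c ^ 2 * hy2)
  have hres : ∀ (f : A⟦X⟧), X ^ (j + 1) ∣ f → X ^ (j + 1) ∣ rescale w f := by
    intro f hf
    refine X_pow_dvd_iff.2 fun l hl => ?_
    rw [coeff_rescale, X_pow_dvd_iff.1 hf l hl, mul_zero]
  have hP1 : m (rescale w P) = m (rescale w P0) + c * m (C (w ^ j)) * y := by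
    rw [hc, hy, ← map_mul, ← map_mul, ← map_add, ← key]
    have := hres _ (Ideal.mem_span_singleton.1 (Ideal.Quotient.eq.1 h))
    simp only [map_sub, map_add, map_mul, map_pow, rescale_C, rescale_X] at this
    convert this using 2
    rw [mul_pow, map_pow]; ring
  have hQ1 : m (rescale w Q) = m (rescale w Q0) - c * m (C (w ^ j)) * y := by
    have hd : X ^ (j + 1) ∣ Q - (Q0 - C b * X ^ j) := by
      rw [key, map_sub, map_mul]; exact hQ
    rw [hc, hy, ← map_mul, ← map_mul, ← map_sub, ← key]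
    have := hres _ hd
    simp only [map_sub, map_mul, map_pow, rescale_C, rescale_X] at this
    convert this using 2
    rw [mul_pow, map_pow]; ring
  have r0 : constantCoeff (rescale w P0) = 1 := by
    rw [← coeff_zero_eq_constantCoeff_apply, coeff_rescale, pow_zero, one_mul,
      coeff_zero_eq_constantCoeff_apply, h0]
  have r1 : constantCoeff (rescale w Q0) = 1 := by
    rw [← coeff_zero_eq_constantCoeff_apply, coeff_rescale, pow_zero, one_mul,
      coeff_zero_eq_constantCoeff_apply, hq0]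
  have e1 : m (ratio x w P Q) =
      m (ratio x w P0 Q0) + m (C x) * c * (m (C (w ^ j)) - 1) * y := by
    simp only [ratio, map_mul, hQ, hP1]
    linear_combination (m (C x) * c * m (C (w ^ j))) * one Q0 hq0
      - (m (C x) * c) * one _ r0 - (m (C x) * c * c * m (C (w ^ j))) * hy2
  have e2 : m (ratio x' w Q P) =
      m (ratio x' w Q0 P0) + m (C x') * c * (1 - m (C (w ^ j))) * y := by
    simp only [ratio, map_mul, hP, hQ1]
    linear_combination (-(m (C x') * c * m (C (w ^ j)))) * one P0 h0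
      + (m (C x') * c) * one _ r1 - (m (C x') * c * c * m (C (w ^ j))) * hy2
  simp only [side, ← hw, map_add, map_sum, map_mul, map_sub, map_pow, map_natCast, map_one] at e1 e2 ⊢
  rw [e1, e2]
  have hs : ∀ n ∈ Icc 2 N,
      m (C (a n)) * m X ^ n * m P ^ (2 * n) *
        (((n + 1 : ℕ) : A⟦X⟧ ⧸ I) *
            (m (ratio x w P0 Q0) + m (C x) * c * (m (C w) ^ j - 1) * y) ^ (n - 1) -
          ((n - 1 : ℕ) : A⟦X⟧ ⧸ I) *
            (m (ratio x w P0 Q0) + m (C x) * c * (m (C w) ^ j - 1) * y) ^ (n + 1)) =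
      m (C (a n)) * m X ^ n * m P0 ^ (2 * n) *
        (((n + 1 : ℕ) : A⟦X⟧ ⧸ I) * m (ratio x w P0 Q0) ^ (n - 1) -
          ((n - 1 : ℕ) : A⟦X⟧ ⧸ I) * m (ratio x w P0 Q0) ^ (n + 1)) := by
    intro n hn
    have z : m X ^ n * y = 0 := by
      rw [← map_pow]; exact hXy n (by have := (Finset.mem_Icc.1 hn).1; omega)
    have u1 : m X ^ n * m P = m X ^ n * m P0 := by rw [hP]; linear_combination c * z
    have u2 : m X ^ n * (m (ratio x w P0 Q0) + m (C x) * c * (m (C w) ^ j - 1) * y) =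
        m X ^ n * m (ratio x w P0 Q0) := by
      linear_combination (m (C x) * c * (m (C w) ^ j - 1)) * z
    have p1 := pow_mul_eq_of_annihilated u1 (2 * n)
    have p2 := pow_mul_eq_of_annihilated u2 (n - 1)
    have p3 := pow_mul_eq_of_annihilated u2 (n + 1)
    linear_combination (m (C (a n)) * (((n + 1 : ℕ) : A⟦X⟧ ⧸ I) *
        (m (ratio x w P0 Q0) + m (C x) * c * (m (C w) ^ j - 1) * y) ^ (n - 1) -
          ((n - 1 : ℕ) : A⟦X⟧ ⧸ I) *
            (m (ratio x w P0 Q0) + m (C x) * c * (m (C w) ^ j - 1) * y) ^ (n + 1))) * p1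
      + (m (C (a n)) * m P0 ^ (2 * n) * ((n + 1 : ℕ) : A⟦X⟧ ⧸ I)) * p2
      - (m (C (a n)) * m P0 ^ (2 * n) * ((n - 1 : ℕ) : A⟦X⟧ ⧸ I)) * p3
  rw [Finset.sum_congr rfl hs, hc, hy]
  simp only [map_pow]
  ring

theorem coeff_of_congr {j : ℕ} {f g : A⟦X⟧} (h : X ^ (j + 1) ∣ f - g) {l : ℕ} (hl : l ≤ j) :
    coeff l f = coeff l g := by
  have := X_pow_dvd_iff.1 h l (by omega)
  rwa [map_sub, sub_eq_zero] at this

theorem congr_of_coeff {j : ℕ} {f g : A⟦X⟧} (h : ∀ l ≤ j, coeff l f = coeff l g) :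
    X ^ (j + 1) ∣ f - g :=
  X_pow_dvd_iff.2 fun l hl => by rw [map_sub, h l (by omega), sub_self]

/-- The derivative of the equation at the regular polygon. -/
theorem side_diff_congr {j N : ℕ} (hj : 1 ≤ j) (a : ℕ → A) (x x' b : A) (hxx : x * x' = 1)
    (P Q P0 Q0 : A⟦X⟧) (h0 : constantCoeff P0 = 1) (hPQ : P * Q = 1) (hPQ0 : P0 * Q0 = 1)
    (h : X ^ (j + 1) ∣ P - (P0 + C b * X ^ j)) :
    coeff j (side N a x x' P Q - side N a x' x P Q) =
      coeff j (side N a x x' P0 Q0 - side N a x' x P0 Q0) +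
        b * ((x - x') * (x' ^ 2) ^ j * ((x ^ 2) ^ j - 1) ^ 2) := by
  have e1 := coeff_of_congr (side_congr (N := N) hj a x x' b P Q P0 Q0 h0 hPQ hPQ0 h) le_rfl
  have e2 := coeff_of_congr (side_congr (N := N) hj a x' x b P Q P0 Q0 h0 hPQ hPQ0 h) le_rfl
  rw [map_add, coeff_C_mul_X_pow, if_pos rfl] at e1 e2
  rw [map_sub, map_sub, e1, e2]
  have hp : (x ^ 2) ^ j * (x' ^ 2) ^ j = 1 := by rw [← mul_pow, ← mul_pow, hxx, one_pow, one_pow]
  linear_combination (-b * (x - x') * ((x ^ 2) ^ j - 2)) * hp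

theorem side_one (N : ℕ) (a : ℕ → A) (x x' : A) (j : ℕ) (hj : 1 ≤ j) :
    coeff j (side N a x x' 1 1) = if j ∈ Icc 2 N then
      a j * (((j + 1 : ℕ) : A) * x ^ (j - 1) - ((j - 1 : ℕ) : A) * x ^ (j + 1)) else 0 := by
  simp only [side, ratio, map_one, mul_one, one_pow, map_add, map_sum, ← map_pow, ← map_natCast (C (R := A)),
    ← map_mul, ← map_sub]
  rw [coeff_C, coeff_C, if_neg (by omega), if_neg (by omega), zero_add, zero_add]
  simp only [mul_right_comm (C (a _)) (X ^ _), ← map_mul, coeff_C_mul_X_pow]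
  rw [Finset.sum_ite_eq]

/-- Inverse series of a perturbed series. -/
theorem gauge_congr {j : ℕ} (hj : 1 ≤ j) (b : A) (P Q P0 Q0 : A⟦X⟧) (h0 : constantCoeff P0 = 1)
    (hPQ : P * Q = 1) (hPQ0 : P0 * Q0 = 1) (h : X ^ (j + 1) ∣ P - (P0 + C b * X ^ j)) :
    coeff j (P ^ 2 - Q ^ 2) = coeff j (P0 ^ 2 - Q0 ^ 2) + 4 * b := by
  have hm : ∀ f : A⟦X⟧, constantCoeff f = 1 → X ^ (j + 1) ∣ f * X ^ j - X ^ j := by
    intro f hf
    rw [show f * X ^ j - X ^ j = (f - 1) * X ^ j by ring, pow_succ']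
    exact mul_dvd_mul (by rw [X_dvd_iff]; simp [hf]) dvd_rfl
  have hy2 : (X : A⟦X⟧) ^ (j + 1) ∣ X ^ j * X ^ j := by
    rw [← pow_add]; exact pow_dvd_pow _ (by omega)
  have hq0 : constantCoeff Q0 = 1 := by
    have := congrArg constantCoeff hPQ0; rwa [map_mul, h0, one_mul, map_one] at this
  have key : X ^ (j + 1) ∣ (P ^ 2 - Q ^ 2) - (P0 ^ 2 - Q0 ^ 2 + C (4 * b) * X ^ j) := by
    rw [map_mul, map_ofNat]
    set c := C b
    obtain ⟨u, hu⟩ := h
    obtain ⟨v1, hv1⟩ := hm P0 h0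
    obtain ⟨v2, hv2⟩ := hm Q0 hq0
    obtain ⟨v3, hv3⟩ := hy2
    obtain ⟨v, hv⟩ : X ^ (j + 1) ∣ Q - (Q0 - c * X ^ j) := by
      refine ⟨Q * (c * v1 - u * (Q0 - c * X ^ j) + c ^ 2 * v3 - c * v2), ?_⟩
      linear_combination (Q0 - c * X ^ j) * hPQ - Q * hPQ0 - (Q * (Q0 - c * X ^ j)) * hu
        + (Q * c) * hv1 + (Q * c ^ 2) * hv3 - (Q * c) * hv2
    refine ⟨u * (P + P0 + c * X ^ j) - v * (Q + Q0 - c * X ^ j) + 2 * c * v1 + 2 * c * v2, ?_⟩
    linear_combination (P + P0 + c * X ^ j) * hu - (Q + Q0 - c * X ^ j) * hv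
      + (2 * c) * hv1 + (2 * c) * hv2
  rw [coeff_of_congr key le_rfl, map_add, coeff_C_mul_X_pow, if_pos rfl]

theorem cube_dvd (p x x' : A) (hx : x = 1 + p) (hxx : x * x' = 1) (N : ℕ) (a : ℕ → A) (P Q : A⟦X⟧)
    (hPQ : P * Q = 1) (j : ℕ) : p ^ 3 ∣ coeff j (side N a x x' P Q - side N a x' x P Q) := by
  set I : Ideal A := Ideal.span {p ^ 3} with hI
  set f := Ideal.Quotient.mk I with hf
  have h1 : f p ^ 3 = 0 := by
    rw [← map_pow, hf, Ideal.Quotient.eq_zero_iff_mem, hI, Ideal.mem_span_singleton]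
  have h2 : f x = 1 + f p := by rw [hx, map_add, map_one]
  have h3 : f x' = 1 - f p + f p ^ 2 := by
    have := congrArg f hxx
    rw [map_mul, map_one, h2] at this
    linear_combination (1 - f p + f p ^ 2) * this - f x' * h1
  have hz := side_eq_side h1 N (fun n => f (a n)) _ _ h2 h3 (PowerSeries.map f P)
    (PowerSeries.map f Q) (by rw [← map_mul, hPQ, map_one])
  rw [← map_side, ← map_side, ← sub_eq_zero, ← map_sub] at hz
  have := congrArg (coeff j) hz
  rw [coeff_map, map_zero, hf, Ideal.Quotient.eq_zero_iff_mem, hI, Ideal.mem_span_singleton] at this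
  exact this

theorem map_lengthSum {B : Type*} [CommRing B] (g : A →+* B) (N : ℕ) (a : ℕ → A) (P Q : A⟦X⟧) :
    PowerSeries.map g ((1 + 2 * (euler P * Q)) * (1 + ∑ n ∈ Icc 2 N, C (a n) * X ^ n * P ^ (2 * n)))
      = (1 + 2 * (euler (PowerSeries.map g P) * PowerSeries.map g Q)) *
        (1 + ∑ n ∈ Icc 2 N, C (g (a n)) * X ^ n * PowerSeries.map g P ^ (2 * n)) := by
  have h2 : PowerSeries.map g (2 : A⟦X⟧) = 2 := map_ofNat _ 2
  simp [map_euler, map_sum, h2]

theorem edge_dvd (p x x' : A) (hx : x = 1 + p) (hxx : x * x' = 1) (N : ℕ) (a : ℕ → A) (P Q : A⟦X⟧)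
    (hPQ : P * Q = 1) (J : ℕ) :
    p ^ 2 ∣ coeff J (edge N a x x' P Q) + 2 * p * coeff J ((1 + 2 * (euler P * Q)) *
      (1 + ∑ n ∈ Icc 2 N, C (a n) * X ^ n * P ^ (2 * n))) := by
  set I : Ideal A := Ideal.span {p ^ 2} with hI
  set f := Ideal.Quotient.mk I with hf
  have h1 : f p ^ 2 = 0 := by
    rw [← map_pow, hf, Ideal.Quotient.eq_zero_iff_mem, hI, Ideal.mem_span_singleton]
  have h2 : f x = 1 + f p := by rw [hx, map_add, map_one]
  have hz := edge_mod_sq h1 N (fun n => f (a n)) _ (f x') h2 (by rw [← map_mul, hxx, map_one])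
    (PowerSeries.map f P) (PowerSeries.map f Q) (by rw [← map_mul, hPQ, map_one])
  rw [← map_edge, ← map_lengthSum, ← map_ofNat (C (R := A ⧸ I)) 2, ← map_mul] at hz
  have := congrArg (coeff J) hz
  rw [map_neg, coeff_C_mul, coeff_map, coeff_map, ← map_ofNat f 2, ← map_mul, ← map_mul,
    ← add_eq_zero_iff_eq_neg, ← map_add, hf, Ideal.Quotient.eq_zero_iff_mem, hI,
    Ideal.mem_span_singleton] at this
  exact this

theorem kernel_dvd (p x x' : A) (hx : x = 1 + p) (hxx : x * x' = 1) (n : ℕ) (hn : 2 ≤ n) :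
    p ^ 4 ∣ 6 * ((((n + 1 : ℕ) : A) * x ^ (n - 1) - ((n - 1 : ℕ) : A) * x ^ (n + 1)) -
      (((n + 1 : ℕ) : A) * x' ^ (n - 1) - ((n - 1 : ℕ) : A) * x' ^ (n + 1))) +
      8 * (n : A) * ((n : A) ^ 2 - 1) * p ^ 3 := by
  set I : Ideal A := Ideal.span {p ^ 4} with hI
  set f := Ideal.Quotient.mk I with hf
  have h1 : f p ^ 4 = 0 := by
    rw [← map_pow, hf, Ideal.Quotient.eq_zero_iff_mem, hI, Ideal.mem_span_singleton]
  have hk := six_kernel h1 (f x) (f x') (by rw [hx, map_add, map_one])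
    (by rw [← map_mul, hxx, map_one]) n hn
  have h6 : f 6 = 6 := map_ofNat f 6
  have h8 : f 8 = 8 := map_ofNat f 8
  rw [← Ideal.mem_span_singleton, ← hI, ← Ideal.Quotient.eq_zero_iff_mem, ← hf]
  simp only [map_add, map_sub, map_mul, map_pow, map_natCast, map_one, h6, h8]
  linear_combination hk

theorem multiplier_eq (p x x' : A) (hx : x = 1 + p) (hxx : x * x' = 1) (j : ℕ) :
    (x - x') * (x' ^ 2) ^ j * ((x ^ 2) ^ j - 1) ^ 2 =
      p ^ 3 * (x' * (2 + p) * (x' ^ 2) ^ j * (∑ i ∈ range (2 * j), x ^ i) ^ 2) := by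
  have e1 : (x ^ 2) ^ j - 1 = p * ∑ i ∈ range (2 * j), x ^ i := by
    rw [← pow_mul, ← geom_sum_mul, hx]; ring
  have e2 : x - x' = x' * p * (2 + p) := by subst hx; linear_combination -(1 + p) * hxx
  rw [e1, e2]; ring

theorem edge_coeff_zero {K : Type*} [Field K] [CharZero K] (N : ℕ) (a : ℕ → K) (x x' : K)
    (hxx : x * x' = 1) (P Q : K⟦X⟧) (hPQ : P * Q = 1) (J : ℕ) (hJ : J ≠ 0) (hw : (x ^ 2) ^ J = 1)
    (hE : ∀ l ≤ J, coeff l (side N a x x' P Q) = coeff l (side N a x' x P Q)) :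
    coeff J (edge N a x x' P Q) = 0 := by
  have h2 := congrArg (coeff J) (euler_edge N a x x' hxx P Q hPQ)
  have h3 : coeff J (side N a x x' P Q * (1 + 2 * (euler P * Q))) =
      coeff J (side N a x' x P Q * (1 + 2 * (euler P * Q))) := by
    rw [coeff_mul, coeff_mul]
    refine Finset.sum_congr rfl fun i hi => ?_
    rw [hE i.1 (by have := mem_antidiagonal.1 hi; omega)]
  rw [map_sub, coeff_rescale, hw, one_mul, h3, sub_self, ← map_ofNat (C (R := K)) 2, coeff_C_mul,
    coeff_euler, mul_eq_zero, mul_eq_zero] at h2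
  rcases h2 with h | h | h
  · exact absurd h two_ne_zero
  · exact absurd h (Nat.cast_ne_zero.2 hJ)
  · exact h

/-- The length identity in prime characteristic. -/
theorem logDeriv_zero {k : Type*} [Field k] {q : ℕ} [CharP k q] [Fact q.Prime] (N : ℕ) (hN : N + 1 < q) (h2q : 2 < q)
    (a : ℕ → k) (P Q : k⟦X⟧) (hPQ : P * Q = 1) (h0 : constantCoeff P = 1) (n0 : ℕ) (hn0 : 0 < n0)
    (h : coeff (q * n0) ((1 + 2 * (euler P * Q)) *
      (1 + ∑ n ∈ Icc 2 N, C (a n) * X ^ n * P ^ (2 * n))) = 0) :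
    coeff n0 (euler P * Q) = 0 := by
  have hq := (Fact.out : q.Prime)
  have small : ∀ n : ℕ, 0 < n → n < q → (n : k) ≠ 0 := fun n h1 h2 h => by
    have := Nat.le_of_dvd h1 ((CharP.cast_eq_zero_iff k q n).1 h); omega
  have h2 : (2 : k) ≠ 0 := fun hh => small 2 two_pos h2q (by exact_mod_cast hh)
  have hterm : ∀ n ∈ Icc 2 N,
      coeff (q * n0) ((1 + 2 * (euler P * Q)) * (C (a n) * X ^ n * P ^ (2 * n))) = 0 := by
    intro n hn
    have hn2 := Finset.mem_Icc.1 hn
    obtain ⟨t, ht⟩ : ∃ t, 2 * n = t + 1 := ⟨2 * n - 1, by omega⟩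
    have htn : (t : k⟦X⟧) + 1 = 2 * (n : k⟦X⟧) := by
      exact_mod_cast congrArg (Nat.cast (R := k⟦X⟧)) ht.symm
    have he : C (n : k) * ((1 + 2 * (euler P * Q)) * (C (a n) * X ^ n * P ^ (2 * n))) =
        euler (C (a n) * X ^ n * P ^ (2 * n)) := by
      rw [euler_mul, euler_mul, euler_C, euler_X_pow, euler_pow, ht, map_natCast,
        Nat.add_sub_cancel]
      push_cast
      rw [htn]
      linear_combination (C (a n) * X ^ n * P ^ t * euler P * 2 * (n : k⟦X⟧)) * hPQ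
    have := congrArg (coeff (q * n0)) he
    rw [coeff_C_mul, coeff_euler, Nat.cast_mul, CharP.cast_eq_zero k q, zero_mul, zero_mul] at this
    exact (mul_eq_zero.1 this).resolve_left (small n (by omega) (by omega))
  rw [mul_add, mul_one, map_add, Finset.mul_sum, map_sum, Finset.sum_eq_zero hterm, add_zero,
    map_add, coeff_one, if_neg (Nat.mul_pos hq.pos hn0).ne', zero_add,
    ← map_ofNat (C (R := k)) 2, coeff_C_mul, mul_eq_zero] at h
  have hJ := h.resolve_left h2
  rw [logDeriv_coeff q P Q hPQ h0 n0, pow_eq_zero_iff hq.ne_zero] at hJ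
  exact hJ

variable {K : Type*} [Field K] [CharZero K] (V : ValuationSubring K) {q : ℕ} [hq : Fact q.Prime]

include hq in
theorem root_mem {x : K} (hx : x ^ q = 1) : x ∈ V := by
  rcases V.mem_or_inv_mem x with h | h
  · exact h
  · have hxx : x ^ (q - 1) * x = 1 := by rw [← pow_succ, Nat.sub_add_cancel hq.out.one_lt.le, hx]
    have e : x = (x⁻¹) ^ (q - 1) := by rw [inv_pow]; exact (inv_eq_of_mul_eq_one_right hxx).symm
    rw [e]; exact pow_mem h _

include hq in
theorem residue_charP (hqV : (q : K) ∈ V.nonunits) : CharP (IsLocalRing.ResidueField V) q := by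
  refine (CharP.charP_iff_prime_eq_zero hq.out).2 ?_
  rw [← map_natCast (IsLocalRing.residue V), IsLocalRing.residue_eq_zero_iff]
  obtain ⟨_, h⟩ := ValuationSubring.mem_nonunits_iff_exists_mem_maximalIdeal.1 hqV
  exact h

theorem isUnit_of_residue {v : V} (h : IsLocalRing.residue V v ≠ 0) : IsUnit v := by
  by_contra hv
  exact h ((IsLocalRing.residue_eq_zero_iff _).2 hv)

include hq in
theorem residue_root [CharP (IsLocalRing.ResidueField V) q] {X1 : V} (h : X1 ^ q = 1) :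
    IsLocalRing.residue V X1 = 1 := by
  have h1 : (IsLocalRing.residue V X1 - 1) ^ q = 0 := by
    rw [sub_pow_char, ← map_pow, h, map_one, one_pow, sub_self]
  exact sub_eq_zero.1 ((pow_eq_zero_iff hq.out.ne_zero).1 h1)

include hq in
theorem multiplier_unit [CharP (IsLocalRing.ResidueField V) q] (h2q : 2 < q) {X1 : V} (h : X1 ^ q = 1)
    {j : ℕ} (hj : ¬ q ∣ j) :
    IsUnit (X1 ^ (q - 1) * (2 + (X1 - 1)) * ((X1 ^ (q - 1)) ^ 2) ^ j *
      (∑ i ∈ range (2 * j), X1 ^ i) ^ 2) := by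
  refine isUnit_of_residue V ?_
  have h1 := residue_root V h
  have e2 : IsLocalRing.residue V 2 = 2 := map_ofNat _ 2
  simp only [map_mul, map_add, map_sub, map_pow, map_sum, map_one, h1, e2, sub_self, add_zero, one_pow,
    Finset.sum_const, Finset.card_range, nsmul_eq_mul, mul_one, one_mul]
  have small : ∀ n : ℕ, ¬ q ∣ n → (n : IsLocalRing.ResidueField V) ≠ 0 := fun n hn hh =>
    hn ((CharP.cast_eq_zero_iff _ q n).1 hh)
  have hq2 : ¬ q ∣ 2 := fun hh => by have := Nat.le_of_dvd two_pos hh; omega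
  exact mul_ne_zero (by exact_mod_cast small 2 hq2)
    (pow_ne_zero _ (small _ fun hh => ((hq.out.dvd_mul).1 hh).elim hq2 hj))

theorem exists_trunc (P : K⟦X⟧) (h0 : constantCoeff P = 1) {j : ℕ} (hj : 1 ≤ j)
    (hmem : ∀ i < j, coeff i P ∈ V) :
    ∃ P0 Q0 : V⟦X⟧, constantCoeff P0 = 1 ∧ P0 * Q0 = 1 ∧
      (∀ i < j, algebraMap V K (coeff i P0) = coeff i P) ∧ (∀ i, j ≤ i → coeff i P0 = 0) := by
  have c0 : constantCoeff (mk fun i => if h : i < j then (⟨coeff i P, hmem i h⟩ : V) else 0) = 1 := by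
    refine Subtype.ext ?_
    rw [← coeff_zero_eq_constantCoeff_apply, coeff_mk, dif_pos (by omega)]
    show coeff 0 P = 1
    rw [coeff_zero_eq_constantCoeff_apply, h0]
  refine ⟨_, _, c0, mul_invOfUnit _ 1 (by rw [c0]; rfl), ?_, ?_⟩
  · intro i hi; rw [coeff_mk, dif_pos hi]; rfl
  · intro i hi; rw [coeff_mk, dif_neg (by omega)]

theorem map_trunc_congr (P : K⟦X⟧) {j : ℕ} {P0 : V⟦X⟧}
    (h1 : ∀ i < j, algebraMap V K (coeff i P0) = coeff i P) (h2 : coeff j P0 = 0) :
    X ^ (j + 1) ∣ P - (PowerSeries.map (algebraMap V K) P0 + C (coeff j P) * X ^ j) := by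
  refine congr_of_coeff fun l hl => ?_
  rw [map_add, coeff_map, coeff_C_mul_X_pow]
  rcases hl.lt_or_eq with h | h
  · rw [h1 l h, if_neg h.ne, add_zero]
  · subst h; rw [h2, map_zero, if_pos rfl, zero_add]

theorem map_unit_series {P0 Q0 : V⟦X⟧} (c0 : constantCoeff P0 = 1) (h : P0 * Q0 = 1) :
    constantCoeff (PowerSeries.map (algebraMap V K) P0) = 1 ∧
      PowerSeries.map (algebraMap V K) P0 * PowerSeries.map (algebraMap V K) Q0 = 1 := by
  refine ⟨?_, by rw [← map_mul, h, map_one]⟩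
  rw [← coeff_zero_eq_constantCoeff_apply, coeff_map, coeff_zero_eq_constantCoeff_apply, c0, map_one]

include hq in
/-- The coefficients of a formal solution are integral. -/
theorem integral_coeff (hqV : (q : K) ∈ V.nonunits) (h2q : 2 < q) {N : ℕ} {X1 : V} (hX1 : X1 ^ q = 1)
    (hp0 : X1 - 1 ≠ 0) (a : ℕ → V) (P Q : K⟦X⟧) (hPQ : P * Q = 1) (h0 : constantCoeff P = 1) (M : ℕ)
    (hE : ∀ j ≤ M, coeff j
      (side N (fun n => algebraMap V K (a n)) (algebraMap V K X1) (algebraMap V K (X1 ^ (q - 1))) P Q -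
       side N (fun n => algebraMap V K (a n)) (algebraMap V K (X1 ^ (q - 1))) (algebraMap V K X1) P Q) = 0)
    (hG : ∀ j ≤ M, 0 < j → q ∣ j → coeff j (P ^ 2 - Q ^ 2) = 0) :
    ∀ j ≤ M, coeff j P ∈ V := by
  haveI := residue_charP V hqV
  have hxx : X1 * X1 ^ (q - 1) = 1 := by
    rw [← pow_succ', Nat.sub_add_cancel hq.out.one_lt.le, hX1]
  set X2 := X1 ^ (q - 1) with hX2
  set ι := algebraMap V K with hι
  have inj : Function.Injective ι := IsFractionRing.injective V K
  intro j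
  induction j using Nat.strong_induction_on with
  | _ j ih =>
    intro hjM
    rcases Nat.eq_zero_or_pos j with rfl | hj
    · rw [coeff_zero_eq_constantCoeff_apply, h0]; exact one_mem _
    obtain ⟨P0, Q0, c0, hinv0, hlow0, hhigh0⟩ :=
      exists_trunc V P h0 hj fun i hi => ih i hi (by omega)
    obtain ⟨hc0, hPQc⟩ := map_unit_series V c0 hinv0
    have hnear := map_trunc_congr V P hlow0 (hhigh0 j le_rfl)
    by_cases hqj : q ∣ j
    · have hd := gauge_congr hj (coeff j P) P Q _ _ hc0 hPQ hPQc hnear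
      rw [hG j hjM hj hqj, ← map_pow, ← map_pow, ← map_sub, coeff_map] at hd
      have h4r : IsLocalRing.residue V 4 ≠ 0 := by
        rw [map_ofNat]
        intro hh
        have h4 : ((2 * 2 : ℕ) : IsLocalRing.ResidueField V) = 0 := by exact_mod_cast hh
        rcases (hq.out.dvd_mul).1 ((CharP.cast_eq_zero_iff _ q _).1 h4) with h | h <;>
          · have := Nat.le_of_dvd two_pos h; omega
      obtain ⟨u, hu⟩ := isUnit_of_residue V h4r
      have h4 : ι (u : V) = 4 := by rw [hu, map_ofNat]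
      have h5 : ι (↑u⁻¹ : V) * ι (u : V) = 1 := by rw [← map_mul, Units.inv_mul, map_one]
      have e : coeff j P = ι (-(↑u⁻¹ * coeff j (P0 ^ 2 - Q0 ^ 2))) := by
        rw [map_neg, map_mul]
        linear_combination (-ι (↑u⁻¹ : V)) * hd - coeff j P * h5 + (coeff j P * ι (↑u⁻¹ : V)) * h4
      rw [e]; exact (-(↑u⁻¹ * coeff j (P0 ^ 2 - Q0 ^ 2)) : V).2
    · have hd := side_diff_congr (N := N) hj (fun n => ι (a n)) (ι X1) (ι X2) (coeff j P)
        (by rw [← map_mul, hxx, map_one]) P Q _ _ hc0 hPQ hPQc hnear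
      rw [hE j hjM, ← map_side, ← map_side, ← map_sub, coeff_map] at hd
      obtain ⟨y, hy⟩ := cube_dvd (X1 - 1) X1 X2 (by ring) hxx N a P0 Q0 hinv0 j
      obtain ⟨u, hu⟩ := multiplier_unit V h2q hX1 hqj
      have hs := congrArg ι (multiplier_eq (X1 - 1) X1 X2 (by ring) hxx j)
      rw [← hu] at hs
      simp only [map_mul, map_sub, map_pow, map_one] at hs
      rw [hy, hs, map_mul, map_pow, map_sub, map_one] at hd
      have hp3 : (ι X1 - 1) ^ 3 ≠ 0 := pow_ne_zero 3 fun h => hp0 (inj (by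
        rw [map_sub, map_one, h, map_zero]))
      have h5 : ι (↑u⁻¹ : V) * ι (u : V) = 1 := by rw [← map_mul, Units.inv_mul, map_one]
      have e : coeff j P = ι (-(↑u⁻¹ * y)) := by
        refine mul_left_cancel₀ hp3 ?_
        rw [map_neg, map_mul]
        linear_combination (-ι (↑u⁻¹ : V)) * hd - ((ι X1 - 1) ^ 3 * coeff j P) * h5
      rw [e]; exact (-(↑u⁻¹ * y) : V).2

include hq in
/-- No formal series solves the equation of a periodic orbit of prime order. -/
theorem no_formal_solution (hqV : (q : K) ∈ V.nonunits) {N : ℕ} (hqN : N + 1 < q) {x : K}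
    (hx : x ^ q = 1) (hx1 : x ≠ 1) (a : ℕ → K) (ha : ∀ n, a n ∈ V) {n0 : ℕ} (hn0 : n0 ∈ Icc 2 N)
    (hne : a n0 ≠ 0) (hinv : (a n0)⁻¹ ∈ V) (hlow : ∀ n, 2 ≤ n → n < n0 → a n = 0) (P Q : K⟦X⟧)
    (hPQ : P * Q = 1) (h0 : constantCoeff P = 1)
    (hE : ∀ j ≤ q * n0, coeff j (side N a x (x ^ (q - 1)) P Q - side N a (x ^ (q - 1)) x P Q) = 0)
    (hG : ∀ j ≤ q * n0, 0 < j → q ∣ j → coeff j (P ^ 2 - Q ^ 2) = 0) : False := by
  have hn : 2 ≤ n0 ∧ n0 ≤ N := Finset.mem_Icc.1 hn0
  haveI := residue_charP V hqV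
  set ι := algebraMap V K with hι
  have inj : Function.Injective ι := IsFractionRing.injective V K
  obtain ⟨X1, rfl⟩ : ∃ X1 : V, ι X1 = x := ⟨⟨x, root_mem V hx⟩, rfl⟩
  obtain ⟨a', rfl⟩ : ∃ a' : ℕ → V, (fun n => ι (a' n)) = a := ⟨fun n => ⟨a n, ha n⟩, rfl⟩
  have hX1 : X1 ^ q = 1 := inj (by rw [map_pow, hx, map_one])
  have hp0 : X1 - 1 ≠ 0 := fun h => hx1 (by rw [sub_eq_zero.1 h, map_one])
  rw [← map_pow] at hE
  have hxx : X1 * X1 ^ (q - 1) = 1 := by
    rw [← pow_succ', Nat.sub_add_cancel hq.out.one_lt.le, hX1]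
  set X2 := X1 ^ (q - 1) with hX2
  have hxxK : ι X1 * ι X2 = 1 := by rw [← map_mul, hxx, map_one]
  have integral := integral_coeff V hqV (by omega) hX1 hp0 a' P Q hPQ h0 (q * n0) hE hG
  obtain ⟨PV, QV, cV, hinvV, hlowV, -⟩ :=
    exists_trunc V P h0 (j := q * n0 + 1) (by omega) fun i hi => integral i (by omega)
  obtain ⟨hcV, hPQV⟩ := map_unit_series V cV hinvV
  have hn0q : n0 ≤ q * n0 := Nat.le_mul_of_pos_left _ hq.out.pos
  -- low coefficients
  have low : ∀ j, 0 < j → j < n0 → coeff j P = 0 := by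
    intro j
    induction j using Nat.strong_induction_on with
    | _ j ih =>
      intro hj hjn
      have hnear : X ^ (j + 1) ∣ P - (1 + C (coeff j P) * X ^ j) := by
        refine congr_of_coeff fun l hl => ?_
        rw [map_add, coeff_one, coeff_C_mul_X_pow]
        rcases Nat.eq_zero_or_pos l with rfl | hl0
        · simp [hj.ne, h0]
        rcases hl.lt_or_eq with h | h
        · simp [hl0.ne', h.ne, ih l h hl0 (by omega)]
        · subst h; simp [hl0.ne']
      have hd := side_diff_congr (N := N) hj (fun n => ι (a' n)) (ι X1) (ι X2) (coeff j P) hxxK P Q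
        1 1 (map_one _) hPQ (one_mul _) hnear
      have hz : coeff j (side N (fun n => ι (a' n)) (ι X1) (ι X2) 1 1 -
          side N (fun n => ι (a' n)) (ι X2) (ι X1) 1 1) = 0 := by
        rw [map_sub, side_one N _ _ _ j hj, side_one N _ _ _ j hj]
        split_ifs with h
        · have h' : ι (a' j) = 0 := hlow j (Finset.mem_Icc.1 h).1 hjn
          rw [h']; ring
        · exact sub_self 0
      rw [hE j (by omega), hz, zero_add] at hd
      refine (mul_eq_zero.1 hd.symm).resolve_right fun h => ?_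
      have hs := congrArg ι (multiplier_eq (X1 - 1) X1 X2 (by ring) hxx j)
      obtain ⟨u, hu⟩ := multiplier_unit V (by omega) hX1
        (fun hh => by have := Nat.le_of_dvd hj hh; omega : ¬ q ∣ j)
      rw [← hu] at hs
      simp only [map_mul, map_sub, map_pow, map_one] at hs
      rw [h] at hs
      refine pow_ne_zero 3 (fun hh => hp0 (inj (by rw [map_sub, map_one, hh, map_zero])))
        ((mul_eq_zero.1 hs.symm).resolve_right ?_)
      exact (u.isUnit.map ι).ne_zero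
  -- the length identity
  have hJ : q * n0 ≠ 0 := (Nat.mul_pos hq.out.pos (by omega)).ne'
  have hedge : coeff (q * n0) (edge N a' X1 X2 PV QV) = 0 := by
    refine inj ?_
    rw [map_zero, ← coeff_map, map_edge]
    refine edge_coeff_zero N _ _ _ hxxK _ _ hPQV _ hJ ?_ fun l hl => ?_
    · rw [← map_pow, ← map_pow, ← pow_mul, mul_comm, mul_assoc, pow_mul, hX1, one_pow, map_one]
    · have h1 : X ^ (q * n0 + 1) ∣ P - (PowerSeries.map ι PV + C 0 * X ^ (q * n0)) := by
        rw [map_zero, zero_mul, add_zero]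
        exact congr_of_coeff fun i hi => by rw [coeff_map, hlowV i (by omega)]
      have hJ1 : 1 ≤ q * n0 := Nat.one_le_iff_ne_zero.2 hJ
      have e1 := coeff_of_congr (side_congr (N := N) hJ1 (fun n => ι (a' n)) (ι X1) (ι X2) 0 P Q
        _ _ hcV hPQ hPQV h1) hl
      have e2 := coeff_of_congr (side_congr (N := N) hJ1 (fun n => ι (a' n)) (ι X2) (ι X1) 0 P Q
        _ _ hcV hPQ hPQV h1) hl
      rw [zero_mul, map_zero, zero_mul, add_zero] at e1 e2
      rw [← e1, ← e2, ← sub_eq_zero, ← map_sub, hE l hl]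
  obtain ⟨y, hy⟩ := edge_dvd (X1 - 1) X1 X2 (by ring) hxx N a' PV QV hinvV (q * n0)
  rw [hedge, zero_add] at hy
  have hp1 : IsLocalRing.residue V (X1 - 1) = 0 := by
    rw [map_sub, map_one, residue_root V hX1, sub_self]
  have hnat : ∀ n : ℕ, ¬ q ∣ n → (n : IsLocalRing.ResidueField V) ≠ 0 := fun n hn hh =>
    hn ((CharP.cast_eq_zero_iff _ q n).1 hh)
  have hsmall : ∀ n : ℕ, 0 < n → n < q → (n : IsLocalRing.ResidueField V) ≠ 0 := fun n h1 h2 =>
    hnat n fun hh => by have := Nat.le_of_dvd h1 hh; omega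
  set Z := coeff (q * n0) ((1 + 2 * (euler PV * QV)) *
    (1 + ∑ n ∈ Icc 2 N, C (a' n) * X ^ n * PV ^ (2 * n))) with hZ
  have hy' : 2 * Z = (X1 - 1) * y := mul_left_cancel₀ hp0 (by linear_combination hy)
  have hZr : IsLocalRing.residue V Z = 0 := by
    have := congrArg (IsLocalRing.residue V) hy'
    rw [map_mul, map_mul, hp1, zero_mul, map_ofNat, mul_eq_zero] at this
    exact this.resolve_left (by exact_mod_cast hsmall 2 two_pos (by omega))
  rw [hZ, ← coeff_map, map_lengthSum] at hZr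
  set Pk := PowerSeries.map (IsLocalRing.residue V) PV with hPk
  set Qk := PowerSeries.map (IsLocalRing.residue V) QV with hQk
  have hPQk : Pk * Qk = 1 := by rw [hPk, hQk, ← map_mul, hinvV, map_one]
  have hPk0 : constantCoeff Pk = 1 := by
    rw [hPk, ← coeff_zero_eq_constantCoeff_apply, coeff_map, coeff_zero_eq_constantCoeff_apply, cV,
      map_one]
  have hL := logDeriv_zero N hqN (by omega) _ Pk Qk hPQk hPk0 n0 (by omega) hZr
  set b : V := coeff n0 PV with hb
  have hbres : IsLocalRing.residue V b = 0 := by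
    rw [coeff_mul, Finset.sum_eq_single (n0, 0)] at hL
    · have hQk0 : constantCoeff Qk = 1 := by
        have := congrArg constantCoeff hPQk; rwa [map_mul, hPk0, one_mul, map_one] at this
      rw [coeff_euler, coeff_zero_eq_constantCoeff_apply, hQk0, mul_one, hPk, coeff_map] at hL
      exact (mul_eq_zero.1 hL).resolve_left (hsmall n0 (by omega) (by omega))
    · intro i hi hne'
      have h := mem_antidiagonal.1 hi
      have hi0 : i.1 < n0 := by
        rcases Nat.lt_or_ge i.1 n0 with h' | h'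
        · exact h'
        · exact absurd (Prod.ext (show i.1 = n0 by omega) (show i.2 = 0 by omega)) hne'
      rw [coeff_euler]
      rcases Nat.eq_zero_or_pos i.1 with h1 | h1
      · simp [h1]
      have : coeff i.1 PV = 0 := inj (by rw [hlowV i.1 (by omega), low _ h1 hi0, map_zero])
      rw [hPk, coeff_map, this, map_zero, mul_zero, zero_mul]
    · simp
  -- the equation in degree n0
  have hd : coeff n0 (side N (fun n => ι (a' n)) (ι X1) (ι X2) 1 1 -
      side N (fun n => ι (a' n)) (ι X2) (ι X1) 1 1) +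
      ι b * ((ι X1 - ι X2) * (ι X2 ^ 2) ^ n0 * ((ι X1 ^ 2) ^ n0 - 1) ^ 2) = 0 := by
    have hnear : X ^ (n0 + 1) ∣ P - (1 + C (ι b) * X ^ n0) := by
      refine congr_of_coeff fun l hl => ?_
      rw [map_add, coeff_one, coeff_C_mul_X_pow]
      rcases Nat.eq_zero_or_pos l with rfl | hl0
      · simp [show ¬ (0 = n0) by omega, h0]
      rcases hl.lt_or_eq with h | h
      · simp [hl0.ne', h.ne, low l hl0 h]
      · subst h; rw [hb, ← hlowV l (by omega)]; simp [hl0.ne']; rfl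
    rw [← side_diff_congr (N := N) (by omega) (fun n => ι (a' n)) (ι X1) (ι X2) (ι b) hxxK P Q 1 1
      (map_one _) hPQ (one_mul _) hnear, hE n0 hn0q]
  rw [map_sub, side_one N _ _ _ n0 (by omega), side_one N _ _ _ n0 (by omega), if_pos hn0,
    if_pos hn0] at hd
  have hV : a' n0 * ((((n0 + 1 : ℕ) : V) * X1 ^ (n0 - 1) - ((n0 - 1 : ℕ) : V) * X1 ^ (n0 + 1)) -
      (((n0 + 1 : ℕ) : V) * X2 ^ (n0 - 1) - ((n0 - 1 : ℕ) : V) * X2 ^ (n0 + 1))) +
      b * ((X1 - X2) * (X2 ^ 2) ^ n0 * ((X1 ^ 2) ^ n0 - 1) ^ 2) = 0 := by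
    refine inj ?_
    simp only [map_add, map_sub, map_mul, map_pow, map_natCast, map_one, map_zero]
    linear_combination hd
  rw [multiplier_eq (X1 - 1) X1 X2 (by ring) hxx n0] at hV
  generalize X2 * (2 + (X1 - 1)) * (X2 ^ 2) ^ n0 * (∑ i ∈ range (2 * n0), X1 ^ i) ^ 2 = s at hV
  obtain ⟨z, hz⟩ := kernel_dvd (X1 - 1) X1 X2 (by ring) hxx n0 hn.1
  have hfin : 8 * (n0 : V) * ((n0 : V) ^ 2 - 1) * a' n0 = (X1 - 1) * (z * a' n0) + 6 * b * s :=
    mul_left_cancel₀ (pow_ne_zero 3 hp0) (by linear_combination a' n0 * hz - 6 * hV)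
  have hr := congrArg (IsLocalRing.residue V) hfin
  have e8 : IsLocalRing.residue V 8 = 8 := map_ofNat _ 8
  simp only [map_mul, map_add, map_sub, map_pow, map_natCast, map_one, hp1, hbres, e8, mul_zero,
    zero_mul, add_zero] at hr
  have haunit : IsLocalRing.residue V (a' n0) ≠ 0 := by
    have : a' n0 * ⟨_, hinv⟩ = 1 := inj (by rw [map_mul, map_one]; exact mul_inv_cancel₀ hne)
    exact left_ne_zero_of_mul_eq_one (by rw [← map_mul, this, map_one])
  have h8 : (8 : IsLocalRing.ResidueField V) ≠ 0 := by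
    intro h
    have h8' : ((2 : ℕ) : IsLocalRing.ResidueField V) ^ 3 = 0 := by rw [← h]; norm_num
    exact hsmall 2 two_pos (by omega) ((pow_eq_zero_iff three_ne_zero).1 h8')
  refine mul_ne_zero (mul_ne_zero (mul_ne_zero h8 (hsmall n0 (by omega) (by omega))) ?_) haunit hr
  intro h
  have h1 : (((n0 - 1) * (n0 + 1) : ℕ) : IsLocalRing.ResidueField V) = 0 := by
    rw [Nat.cast_mul, Nat.cast_sub (by omega)]; push_cast; linear_combination h
  rw [Nat.cast_mul, mul_eq_zero] at h1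
  rcases h1 with h1 | h1
  · exact hsmall _ (by omega) (by omega) h1
  · exact hsmall _ (by omega) (by omega) h1

end Vale.Agent.P097.Trig
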