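import Mathlib

/-!
Sequences of functions expanded in weighted trigonometric polynomials.
-/

noncomputable section

namespace Vale.Agent.P097.Trig

open Finset Filter Topology

/-- The mode `e^{i j s}`. -/
def mode (j : ℤ) (s : ℝ) : ℂ := Complex.exp (((j : ℂ) * (s : ℂ)) * Complex.I)

theorem mode_add (j k : ℤ) (s : ℝ) : mode (j + k) s = mode j s * mode k s := by
  rw [mode, mode, mode, ← Complex.exp_add]; push_cast; ring_nf

theorem mode_shift (j : ℤ) (s g : ℝ) : mode j (s + g) = mode j s * mode j g := by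
  rw [mode, mode, mode, ← Complex.exp_add]; push_cast; ring_nf

theorem norm_mode (j : ℤ) (s : ℝ) : ‖mode j s‖ = 1 := by
  rw [mode, ← Complex.ofReal_intCast, ← Complex.ofReal_mul, Complex.norm_exp_ofReal_mul_I]

theorem mode_zero (s : ℝ) : mode 0 s = 1 := by simp [mode]

theorem mode_nat (n : ℕ) (g : ℝ) : mode n g = Complex.exp ((g : ℂ) * Complex.I) ^ n := by
  rw [mode, ← Complex.exp_nat_mul]; push_cast; ring_nf

/-- The weighted trigonometric polynomial with coefficients `b`. -/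
def poly (k : ℕ) (t : ℝ) (b : ℤ → ℂ) (s : ℝ) : ℂ :=
  ∑ j ∈ Icc (-(k : ℤ)) k, b j * ((t ^ j.natAbs : ℝ) : ℂ) * mode j s

variable {U : Ultrafilter ℕ} {t : ℕ → ℝ}

/-- `f` is expanded with coefficients `b` up to order `k`. -/
def HasExp (U : Ultrafilter ℕ) (t : ℕ → ℝ) (k : ℕ) (f : ℕ → ℝ → ℂ) (b : ℕ → ℤ → ℂ) : Prop :=
  ∃ C, 0 ≤ C ∧ ∀ᶠ m in (U : Filter ℕ), (∀ j, ‖b m j‖ ≤ C) ∧
    ∀ s, ‖f m s - poly k (t m) (b m) s‖ ≤ C * t m ^ (k + 1)

/-- `f` has an expansion up to order `k`. -/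
def Lev (U : Ultrafilter ℕ) (t : ℕ → ℝ) (k : ℕ) (f : ℕ → ℝ → ℂ) : Prop :=
  ∃ b, HasExp U t k f b

/-- `f` is bounded by a multiple of `t`. -/
def Small (U : Ultrafilter ℕ) (t : ℕ → ℝ) (f : ℕ → ℝ → ℂ) : Prop :=
  ∃ C, 0 ≤ C ∧ ∀ᶠ m in (U : Filter ℕ), ∀ s, ‖f m s‖ ≤ C * t m

/-- The nonnegative part of the expansion tends to the series `P`. -/
def IsLim (U : Ultrafilter ℕ) (t : ℕ → ℝ) (k : ℕ) (f : ℕ → ℝ → ℂ) (P : PowerSeries ℂ) : Prop :=
  ∃ b, HasExp U t k f b ∧
    ∀ j ≤ k, Tendsto (fun m => b m (j : ℤ)) (U : Filter ℕ) (𝓝 (PowerSeries.coeff j P))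

/-- The scale tends to zero from above. -/
def Scale (U : Ultrafilter ℕ) (t : ℕ → ℝ) : Prop :=
  (∀ᶠ m in (U : Filter ℕ), 0 < t m ∧ t m ≤ 1) ∧ Tendsto t (U : Filter ℕ) (𝓝 0)

theorem norm_poly_le {k : ℕ} {t C : ℝ} {b : ℤ → ℂ} (h0 : 0 ≤ t) (h1 : t ≤ 1) (hb : ∀ j, ‖b j‖ ≤ C)
    (s : ℝ) : ‖poly k t b s‖ ≤ (2 * k + 1) * C := by
  refine (norm_sum_le _ _).trans ?_
  have hcard : ((Icc (-(k : ℤ)) k).card : ℝ) = 2 * k + 1 := by
    rw [Int.card_Icc, show ((k : ℤ) + 1 - -(k : ℤ)).toNat = 2 * k + 1 by omega]; push_cast; ring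
  have := Finset.sum_le_card_nsmul (Icc (-(k : ℤ)) k)
    (fun j => ‖b j * ((t ^ j.natAbs : ℝ) : ℂ) * mode j s‖) C fun j _ => by
      rw [norm_mul, norm_mul, norm_mode, mul_one, Complex.norm_real, Real.norm_eq_abs,
        abs_of_nonneg (pow_nonneg h0 _)]
      exact (mul_le_of_le_one_right (norm_nonneg _) (pow_le_one₀ h0 h1)).trans (hb j)
  rwa [nsmul_eq_mul, hcard] at this

theorem poly_mode_single {k : ℕ} (t : ℝ) (n : ℤ) (c : ℂ) (s : ℝ) :
    poly k t (fun j => if j = n then c else 0) s =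
      if n ∈ Icc (-(k : ℤ)) k then c * ((t ^ n.natAbs : ℝ) : ℂ) * mode n s else 0 := by
  simp only [poly, ite_mul, zero_mul]
  rw [Finset.sum_ite_eq']

theorem IsLim.lev {k : ℕ} {f : ℕ → ℝ → ℂ} {P : PowerSeries ℂ} (h : IsLim U t k f P) : Lev U t k f :=
  let ⟨b, hb, _⟩ := h; ⟨b, hb⟩

theorem Lev.exists_lim {k : ℕ} {f : ℕ → ℝ → ℂ} (h : Lev U t k f) : ∃ P, IsLim U t k f P := by
  obtain ⟨b, hb⟩ := h
  obtain ⟨C, hC, hev⟩ := hb
  have hl : ∀ j : ℕ, ∃ z, Tendsto (fun m => b m (j : ℤ)) (U : Filter ℕ) (𝓝 z) := by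
    intro j
    have hle : ↑(U.map fun m => b m (j : ℤ)) ≤ 𝓟 (Metric.closedBall (0 : ℂ) C) := by
      rw [le_principal_iff, Ultrafilter.mem_coe, Ultrafilter.mem_map]
      filter_upwards [hev] with m hm
      simpa using hm.1 (j : ℤ)
    obtain ⟨z, -, hz⟩ := (isCompact_closedBall (0 : ℂ) C).ultrafilter_le_nhds _ hle
    exact ⟨z, hz⟩
  choose z hz using hl
  exact ⟨PowerSeries.mk z, b, ⟨C, hC, hev⟩, fun j _ => by rw [PowerSeries.coeff_mk]; exact hz j⟩

theorem HasExp.add {k : ℕ} {f g : ℕ → ℝ → ℂ} {b c : ℕ → ℤ → ℂ} (hf : HasExp U t k f b)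
    (hg : HasExp U t k g c) : HasExp U t k (fun m s => f m s + g m s) (fun m j => b m j + c m j) := by
  obtain ⟨C, hC, hf⟩ := hf
  obtain ⟨D, hD, hg⟩ := hg
  refine ⟨C + D, by linarith, ?_⟩
  filter_upwards [hf, hg] with m hfm hgm
  refine ⟨fun j => (norm_add_le _ _).trans (add_le_add (hfm.1 j) (hgm.1 j)), fun s => ?_⟩
  have e : poly k (t m) (fun j => b m j + c m j) s = poly k (t m) (b m) s + poly k (t m) (c m) s := by
    simp only [poly, add_mul, Finset.sum_add_distrib]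
  rw [e, add_mul, show f m s + g m s - (poly k (t m) (b m) s + poly k (t m) (c m) s) =
    (f m s - poly k (t m) (b m) s) + (g m s - poly k (t m) (c m) s) by ring]
  exact (norm_add_le _ _).trans (add_le_add (hfm.2 s) (hgm.2 s))

theorem HasExp.smul {k : ℕ} {f : ℕ → ℝ → ℂ} {b : ℕ → ℤ → ℂ} (hf : HasExp U t k f b) (w : ℂ) :
    HasExp U t k (fun m s => w * f m s) (fun m j => w * b m j) := by
  obtain ⟨C, hC, hf⟩ := hf
  refine ⟨‖w‖ * C, by positivity, ?_⟩
  filter_upwards [hf] with m hfm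
  refine ⟨fun j => by rw [norm_mul]; exact mul_le_mul_of_nonneg_left (hfm.1 j) (norm_nonneg w),
    fun s => ?_⟩
  have e : poly k (t m) (fun j => w * b m j) s = w * poly k (t m) (b m) s := by
    simp only [poly, Finset.mul_sum, mul_assoc]
  rw [e, ← mul_sub, norm_mul, mul_assoc]
  exact mul_le_mul_of_nonneg_left (hfm.2 s) (norm_nonneg w)

theorem HasExp.shift {k : ℕ} {f : ℕ → ℝ → ℂ} {b : ℕ → ℤ → ℂ} (hf : HasExp U t k f b) (g : ℝ) :
    HasExp U t k (fun m s => f m (s + g)) (fun m j => mode j g * b m j) := by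
  obtain ⟨C, hC, hf⟩ := hf
  refine ⟨C, hC, ?_⟩
  filter_upwards [hf] with m hfm
  refine ⟨fun j => by rw [norm_mul, norm_mode, one_mul]; exact hfm.1 j, fun s => ?_⟩
  have e : poly k (t m) (fun j => mode j g * b m j) s = poly k (t m) (b m) (s + g) :=
    Finset.sum_congr rfl fun j _ => by rw [mode_shift]; ring
  rw [e]; exact hfm.2 (s + g)

theorem hasExp_monomial (ht : Scale U t) (k : ℕ) (n : ℤ) {c : ℕ → ℂ} {C : ℝ} (hC : 0 ≤ C)
    (hc : ∀ᶠ m in (U : Filter ℕ), ‖c m‖ ≤ C) :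
    HasExp U t k (fun m s => c m * ((t m ^ n.natAbs : ℝ) : ℂ) * mode n s)
      (fun m j => if j = n then c m else 0) := by
  refine ⟨C, hC, ?_⟩
  filter_upwards [hc, ht.1] with m hm htm
  refine ⟨fun j => ?_, fun s => ?_⟩
  · split_ifs
    · exact hm
    · simpa using hC
  rw [poly_mode_single]
  split_ifs with h
  · rw [sub_self, norm_zero]; exact mul_nonneg hC (pow_nonneg htm.1.le _)
  · rw [sub_zero, norm_mul, norm_mul, norm_mode, mul_one, Complex.norm_real, Real.norm_eq_abs,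
      abs_of_nonneg (pow_nonneg htm.1.le _)]
    refine mul_le_mul hm (pow_le_pow_of_le_one htm.1.le htm.2 ?_) (pow_nonneg htm.1.le _) hC
    simp only [Finset.mem_Icc, not_and_or, not_le] at h
    omega

theorem hasExp_zero (ht : Scale U t) (k : ℕ) {f : ℕ → ℝ → ℂ} {C : ℝ} (hC : 0 ≤ C)
    (h : ∀ᶠ m in (U : Filter ℕ), ∀ s, ‖f m s‖ ≤ C * t m ^ (k + 1)) :
    HasExp U t k f (fun _ _ => 0) := by
  refine ⟨C, hC, ?_⟩
  filter_upwards [h, ht.1] with m hm htm
  exact ⟨fun j => by simpa using hC, fun s => by simpa [poly] using hm s⟩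

/-- The coefficients of a product. -/
def mulCoeff (k l : ℕ) (t : ℝ) (b c : ℤ → ℂ) (n : ℤ) : ℂ :=
  ∑ p ∈ (Icc (-(k : ℤ)) k ×ˢ Icc (-(k : ℤ)) k).filter (fun p => p.1 + p.2 = n ∧ n.natAbs ≤ l),
    b p.1 * c p.2 * ((t ^ (p.1.natAbs + p.2.natAbs - n.natAbs) : ℝ) : ℂ)

theorem poly_mul_poly (k l : ℕ) (t : ℝ) (b c : ℤ → ℂ) (s : ℝ) :
    poly k t b s * poly k t c s - poly l t (mulCoeff k l t b c) s =
      ∑ p ∈ (Icc (-(k : ℤ)) k ×ˢ Icc (-(k : ℤ)) k).filter (fun p => l < (p.1 + p.2).natAbs),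
        b p.1 * c p.2 * ((t ^ (p.1.natAbs + p.2.natAbs) : ℝ) : ℂ) * mode (p.1 + p.2) s := by
  set S := Icc (-(k : ℤ)) k ×ˢ Icc (-(k : ℤ)) k with hS
  set F : ℤ × ℤ → ℂ := fun p =>
    b p.1 * c p.2 * ((t ^ (p.1.natAbs + p.2.natAbs) : ℝ) : ℂ) * mode (p.1 + p.2) s with hF
  have h1 : poly k t b s * poly k t c s = ∑ p ∈ S, F p := by
    rw [poly, poly, Finset.sum_mul_sum, hS, Finset.sum_product]
    refine Finset.sum_congr rfl fun i _ => Finset.sum_congr rfl fun j _ => ?_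
    simp only [hF, pow_add, mode_add, Complex.ofReal_mul]; ring
  have h2 : poly l t (mulCoeff k l t b c) s =
      ∑ p ∈ S.filter (fun p => ¬ l < (p.1 + p.2).natAbs), F p := by
    have h3 : ∀ n ∈ Icc (-(l : ℤ)) l,
        mulCoeff k l t b c n * ((t ^ n.natAbs : ℝ) : ℂ) * mode n s =
          ∑ p ∈ (S.filter (fun p => ¬ l < (p.1 + p.2).natAbs)).filter (fun p => p.1 + p.2 = n), F p := by
      intro n hn
      rw [mulCoeff, Finset.sum_mul, Finset.sum_mul, Finset.filter_filter]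
      have hnl : n.natAbs ≤ l := by rw [Finset.mem_Icc] at hn; omega
      refine Finset.sum_congr (Finset.filter_congr fun p _ => ?_) fun p hp => ?_
      · constructor
        · rintro ⟨h, -⟩; exact ⟨by rw [h]; omega, h⟩
        · rintro ⟨-, h⟩; exact ⟨h, hnl⟩
      · obtain ⟨-, hp⟩ := Finset.mem_filter.1 hp
        have e : p.1.natAbs + p.2.natAbs - n.natAbs + n.natAbs = p.1.natAbs + p.2.natAbs := by
          have := Int.natAbs_add_le p.1 p.2
          rw [hp.2] at this; omega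
        simp only [hF, hp.2]
        conv_rhs => rw [← e, pow_add, Complex.ofReal_mul]
        ring
    rw [poly, Finset.sum_congr rfl h3]
    refine Finset.sum_fiberwise_of_maps_to (fun p hp => ?_) F
    obtain ⟨-, hp⟩ := Finset.mem_filter.1 hp
    rw [Finset.mem_Icc]; omega
  rw [h1, h2, ← Finset.sum_filter_add_sum_filter_not S (fun p => l < (p.1 + p.2).natAbs) F]
  ring

theorem norm_mulCoeff {k l : ℕ} {t C D : ℝ} {b c : ℤ → ℂ} (h0 : 0 ≤ t) (h1 : t ≤ 1)
    (hC : 0 ≤ C) (hb : ∀ j, ‖b j‖ ≤ C) (hc : ∀ j, ‖c j‖ ≤ D) (hD : 0 ≤ D) (n : ℤ) :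
    ‖mulCoeff k l t b c n‖ ≤ (2 * k + 1) ^ 2 * (C * D) := by
  refine (norm_sum_le _ _).trans ((Finset.sum_le_card_nsmul _ _ (C * D) fun p _ => ?_).trans ?_)
  · rw [norm_mul, norm_mul, Complex.norm_real, Real.norm_eq_abs, abs_of_nonneg (pow_nonneg h0 _)]
    exact (mul_le_of_le_one_right (by positivity) (pow_le_one₀ h0 h1)).trans
      (mul_le_mul (hb _) (hc _) (norm_nonneg _) hC)
  · rw [nsmul_eq_mul]
    refine mul_le_mul_of_nonneg_right ?_ (mul_nonneg hC hD)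
    refine (Nat.cast_le.2 (Finset.card_filter_le _ _)).trans (le_of_eq ?_)
    rw [Finset.card_product, Int.card_Icc, show ((k : ℤ) + 1 - -(k : ℤ)).toNat = 2 * k + 1 by omega]
    push_cast; ring

theorem norm_excess {k l : ℕ} {t C D : ℝ} {b c : ℤ → ℂ} (h0 : 0 ≤ t) (h1 : t ≤ 1)
    (hC : 0 ≤ C) (hb : ∀ j, ‖b j‖ ≤ C) (hc : ∀ j, ‖c j‖ ≤ D) (hD : 0 ≤ D) (s : ℝ) :
    ‖poly k t b s * poly k t c s - poly l t (mulCoeff k l t b c) s‖ ≤
      (2 * k + 1) ^ 2 * (C * D) * t ^ (l + 1) := by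
  rw [poly_mul_poly]
  refine (norm_sum_le _ _).trans
    ((Finset.sum_le_card_nsmul _ _ (C * D * t ^ (l + 1)) fun p hp => ?_).trans ?_)
  · obtain ⟨-, hp⟩ := Finset.mem_filter.1 hp
    rw [norm_mul, norm_mul, norm_mul, norm_mode, mul_one, Complex.norm_real, Real.norm_eq_abs,
      abs_of_nonneg (pow_nonneg h0 _)]
    refine mul_le_mul (mul_le_mul (hb _) (hc _) (norm_nonneg _) hC)
      (pow_le_pow_of_le_one h0 h1 ?_) (pow_nonneg h0 _) (mul_nonneg hC hD)
    have := Int.natAbs_add_le p.1 p.2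
    omega
  · rw [nsmul_eq_mul, mul_assoc _ (C * D)]
    refine mul_le_mul_of_nonneg_right ?_ (by positivity)
    refine (Nat.cast_le.2 (Finset.card_filter_le _ _)).trans (le_of_eq ?_)
    rw [Finset.card_product, Int.card_Icc, show ((k : ℤ) + 1 - -(k : ℤ)).toNat = 2 * k + 1 by omega]
    push_cast; ring

theorem HasExp.mul (ht : Scale U t) {k : ℕ} {f g : ℕ → ℝ → ℂ} {b c : ℕ → ℤ → ℂ}
    (hf : HasExp U t k f b) (hg : HasExp U t k g c) :
    HasExp U t k (fun m s => f m s * g m s) (fun m => mulCoeff k k (t m) (b m) (c m)) := by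
  obtain ⟨C, hC, hf⟩ := hf
  obtain ⟨D, hD, hg⟩ := hg
  set A : ℝ := (2 * k + 1) ^ 2 * (C * D) + C * ((2 * k + 1) * D + D) + (2 * k + 1) * C * D with hA
  refine ⟨A, by positivity, ?_⟩
  filter_upwards [hf, hg, ht.1] with m hfm hgm htm
  obtain ⟨h0, h1⟩ := htm
  have hp : 0 ≤ t m ^ (k + 1) := pow_nonneg h0.le _
  refine ⟨fun j => (norm_mulCoeff h0.le h1 hC hfm.1 hgm.1 hD j).trans ?_, fun s => ?_⟩
  · have : 0 ≤ C * ((2 * k + 1) * D + D) + (2 * k + 1) * C * D := by positivity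
    linarith
  set P := poly k (t m) (b m) s
  set Q := poly k (t m) (c m) s
  have hP := norm_poly_le h0.le h1 hfm.1 s (k := k)
  have hQ := norm_poly_le h0.le h1 hgm.1 s (k := k)
  have hgb : ‖g m s‖ ≤ (2 * k + 1) * D + D := by
    calc ‖g m s‖ = ‖Q + (g m s - Q)‖ := by ring_nf
      _ ≤ ‖Q‖ + ‖g m s - Q‖ := norm_add_le _ _
      _ ≤ (2 * k + 1) * D + D :=
        add_le_add hQ ((hgm.2 s).trans (mul_le_of_le_one_right hD (pow_le_one₀ h0.le h1)))
  have e : f m s * g m s - poly k (t m) (mulCoeff k k (t m) (b m) (c m)) s =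
      (P * Q - poly k (t m) (mulCoeff k k (t m) (b m) (c m)) s) +
        ((f m s - P) * g m s + P * (g m s - Q)) := by ring
  rw [e, hA, add_mul, add_mul, add_assoc]
  refine (norm_add_le _ _).trans (add_le_add (norm_excess h0.le h1 hC hfm.1 hgm.1 hD s)
    ((norm_add_le _ _).trans (add_le_add ?_ ?_)))
  · rw [norm_mul, mul_right_comm]
    exact mul_le_mul (hfm.2 s) hgb (norm_nonneg _) (mul_nonneg hC hp)
  · rw [norm_mul, mul_assoc _ D]
    exact mul_le_mul hP (hgm.2 s) (norm_nonneg _) (by positivity)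

/-- A product of two small functions gains one order. -/
theorem Lev.mul_small (ht : Scale U t) {k : ℕ} {f g : ℕ → ℝ → ℂ} (hf : Lev U t k f)
    (hg : Lev U t k g) (sf : Small U t f) (sg : Small U t g) :
    Lev U t (k + 1) (fun m s => f m s * g m s) := by
  obtain ⟨b, C, hC, hf⟩ := hf
  obtain ⟨c, D, hD, hg⟩ := hg
  obtain ⟨E, hE, sf⟩ := sf
  obtain ⟨F, hF, sg⟩ := sg
  set A : ℝ := (2 * k + 1) ^ 2 * (C * D) + C * F + (E + C) * D with hA
  refine ⟨fun m => mulCoeff k (k + 1) (t m) (b m) (c m), A, by positivity, ?_⟩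
  filter_upwards [hf, hg, sf, sg, ht.1] with m hfm hgm sfm sgm htm
  obtain ⟨h0, h1⟩ := htm
  refine ⟨fun j => (norm_mulCoeff h0.le h1 hC hfm.1 hgm.1 hD j).trans ?_, fun s => ?_⟩
  · have : 0 ≤ C * F + (E + C) * D := by positivity
    linarith
  set P := poly k (t m) (b m) s
  set Q := poly k (t m) (c m) s
  have hP : ‖P‖ ≤ (E + C) * t m := by
    calc ‖P‖ = ‖f m s - (f m s - P)‖ := by ring_nf
      _ ≤ ‖f m s‖ + ‖f m s - P‖ := norm_sub_le _ _
      _ ≤ E * t m + C * t m :=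
        add_le_add (sfm s) ((hfm.2 s).trans
          (mul_le_mul_of_nonneg_left (pow_le_of_le_one h0.le h1 (Nat.succ_ne_zero k)) hC))
      _ = (E + C) * t m := by ring
  have e : f m s * g m s - poly (k + 1) (t m) (mulCoeff k (k + 1) (t m) (b m) (c m)) s =
      (P * Q - poly (k + 1) (t m) (mulCoeff k (k + 1) (t m) (b m) (c m)) s) +
        ((f m s - P) * g m s + P * (g m s - Q)) := by ring
  rw [e, hA, add_mul, add_mul, add_assoc]
  refine (norm_add_le _ _).trans (add_le_add (norm_excess h0.le h1 hC hfm.1 hgm.1 hD s)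
    ((norm_add_le _ _).trans (add_le_add ?_ ?_)))
  · rw [norm_mul]
    refine (mul_le_mul (hfm.2 s) (sgm s) (norm_nonneg _) (by positivity)).trans (le_of_eq ?_)
    rw [pow_succ (t m) (k + 1)]; ring
  · rw [norm_mul]
    refine (mul_le_mul hP (hgm.2 s) (norm_nonneg _) (by positivity)).trans (le_of_eq ?_)
    rw [pow_succ (t m) (k + 1)]; ring

theorem Lev.add {k : ℕ} {f g : ℕ → ℝ → ℂ} (hf : Lev U t k f) (hg : Lev U t k g) :
    Lev U t k (fun m s => f m s + g m s) :=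
  let ⟨_, hb⟩ := hf; let ⟨_, hc⟩ := hg; ⟨_, hb.add hc⟩

theorem Lev.smul {k : ℕ} {f : ℕ → ℝ → ℂ} (hf : Lev U t k f) (w : ℂ) :
    Lev U t k (fun m s => w * f m s) :=
  let ⟨_, hb⟩ := hf; ⟨_, hb.smul w⟩

theorem Lev.sub {k : ℕ} {f g : ℕ → ℝ → ℂ} (hf : Lev U t k f) (hg : Lev U t k g) :
    Lev U t k (fun m s => f m s - g m s) := by
  have := hf.add (hg.smul (-1)); simpa [sub_eq_add_neg] using this

theorem Lev.shift {k : ℕ} {f : ℕ → ℝ → ℂ} (hf : Lev U t k f) (g : ℝ) :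
    Lev U t k (fun m s => f m (s + g)) :=
  let ⟨_, hb⟩ := hf; ⟨_, hb.shift g⟩

theorem Lev.mul (ht : Scale U t) {k : ℕ} {f g : ℕ → ℝ → ℂ} (hf : Lev U t k f) (hg : Lev U t k g) :
    Lev U t k (fun m s => f m s * g m s) :=
  let ⟨_, hb⟩ := hf; let ⟨_, hc⟩ := hg; ⟨_, hb.mul ht hc⟩

theorem lev_const (ht : Scale U t) (k : ℕ) (w : ℂ) : Lev U t k (fun _ _ => w) := by
  refine ⟨fun _ j => if j = 0 then w else 0, ?_⟩
  have := hasExp_monomial ht k 0 (c := fun _ => w) (norm_nonneg w) (Eventually.of_forall fun _ => le_rfl)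
  simpa [mode_zero] using this

theorem lev_congr {k : ℕ} {f g : ℕ → ℝ → ℂ} (h : ∀ m s, f m s = g m s) (hf : Lev U t k f) :
    Lev U t k g := by
  rwa [show g = f from funext fun m => funext fun s => (h m s).symm]

theorem lev_sum (ht : Scale U t) {ι : Type*} (S : Finset ι) {k : ℕ} {f : ι → ℕ → ℝ → ℂ}
    (h : ∀ i ∈ S, Lev U t k (f i)) : Lev U t k (fun m s => ∑ i ∈ S, f i m s) := by
  classical
  induction S using Finset.induction_on with
  | empty => simpa using lev_const ht k 0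
  | insert a S ha ih =>
    refine lev_congr (fun m s => (Finset.sum_insert (f := fun i => f i m s) ha).symm) ?_
    exact (h a (Finset.mem_insert_self a S)).add (ih fun i hi => h i (Finset.mem_insert_of_mem hi))

theorem IsLim.add {k : ℕ} {f g : ℕ → ℝ → ℂ} {P Q : PowerSeries ℂ} (hf : IsLim U t k f P)
    (hg : IsLim U t k g Q) : IsLim U t k (fun m s => f m s + g m s) (P + Q) := by
  obtain ⟨b, hb, hP⟩ := hf
  obtain ⟨c, hc, hQ⟩ := hg
  exact ⟨_, hb.add hc, fun j hj => by rw [map_add]; exact (hP j hj).add (hQ j hj)⟩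

theorem IsLim.smul {k : ℕ} {f : ℕ → ℝ → ℂ} {P : PowerSeries ℂ} (hf : IsLim U t k f P) (w : ℂ) :
    IsLim U t k (fun m s => w * f m s) (PowerSeries.C w * P) := by
  obtain ⟨b, hb, hP⟩ := hf
  exact ⟨_, hb.smul w, fun j hj => by rw [PowerSeries.coeff_C_mul]; exact (hP j hj).const_mul w⟩

theorem IsLim.shift {k : ℕ} {f : ℕ → ℝ → ℂ} {P : PowerSeries ℂ} (hf : IsLim U t k f P) (g : ℝ) :
    IsLim U t k (fun m s => f m (s + g))
      (PowerSeries.rescale (Complex.exp ((g : ℂ) * Complex.I)) P) := by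
  obtain ⟨b, hb, hP⟩ := hf
  refine ⟨_, hb.shift g, fun j hj => ?_⟩
  rw [PowerSeries.coeff_rescale, ← mode_nat]
  exact (hP j hj).const_mul _

theorem isLim_monomial (ht : Scale U t) (k : ℕ) (n : ℤ) {c : ℕ → ℂ} {z : ℂ}
    (hc : Tendsto c (U : Filter ℕ) (𝓝 z)) :
    IsLim U t k (fun m s => c m * ((t m ^ n.natAbs : ℝ) : ℂ) * mode n s)
      (if 0 ≤ n then PowerSeries.C z * PowerSeries.X ^ n.natAbs else 0) := by
  have hb : ∀ᶠ m in (U : Filter ℕ), ‖c m‖ ≤ ‖z‖ + 1 :=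
    hc.norm.eventually (eventually_le_nhds (by linarith))
  refine ⟨_, hasExp_monomial ht k n (by positivity) hb, fun j _ => ?_⟩
  by_cases hn : 0 ≤ n
  · rw [if_pos hn, PowerSeries.coeff_C_mul_X_pow]
    by_cases h : (j : ℤ) = n
    · rw [if_pos (show j = n.natAbs by omega)]; simpa [h] using hc
    · rw [if_neg (show ¬ j = n.natAbs by omega)]; simp [h]
  · rw [if_neg hn]; simp [show (j : ℤ) ≠ n by omega]

theorem IsLim.mul (ht : Scale U t) {k : ℕ} {f g : ℕ → ℝ → ℂ} {P Q : PowerSeries ℂ}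
    (hf : IsLim U t k f P) (hg : IsLim U t k g Q) :
    IsLim U t k (fun m s => f m s * g m s) (P * Q) := by
  obtain ⟨b, hb, hP⟩ := hf
  obtain ⟨c, hc, hQ⟩ := hg
  refine ⟨_, hb.mul ht hc, fun n hn => ?_⟩
  set S := (Icc (-(k : ℤ)) k ×ˢ Icc (-(k : ℤ)) k).filter
    (fun p => p.1 + p.2 = (n : ℤ) ∧ (n : ℤ).natAbs ≤ k) with hS
  have main : Tendsto (fun m => ∑ p ∈ S, b m p.1 * c m p.2 *
      ((t m ^ (p.1.natAbs + p.2.natAbs - n) : ℝ) : ℂ)) (U : Filter ℕ)
      (𝓝 (∑ p ∈ S, if 0 ≤ p.1 ∧ 0 ≤ p.2 then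
        PowerSeries.coeff p.1.natAbs P * PowerSeries.coeff p.2.natAbs Q else 0)) := by
    refine tendsto_finset_sum _ fun p hp => ?_
    obtain ⟨hp1, hp2, -⟩ := Finset.mem_filter.1 hp
    rw [Finset.mem_product, Finset.mem_Icc, Finset.mem_Icc] at hp1
    split_ifs with h
    · have e1 : (p.1.natAbs : ℤ) = p.1 := Int.natAbs_of_nonneg h.1
      have e2 : (p.2.natAbs : ℤ) = p.2 := Int.natAbs_of_nonneg h.2
      rw [show p.1.natAbs + p.2.natAbs - n = 0 by omega]
      simp only [pow_zero, Complex.ofReal_one, mul_one]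
      have l1 := hP p.1.natAbs (by omega)
      have l2 := hQ p.2.natAbs (by omega)
      rw [e1] at l1; rw [e2] at l2
      exact l1.mul l2
    · obtain ⟨C, hC, hbb⟩ := hb
      obtain ⟨D, hD, hcc⟩ := hc
      refine squeeze_zero_norm' (a := fun m => C * D * t m) ?_ ?_
      · filter_upwards [hbb, hcc, ht.1] with m hbm hcm htm
        rw [norm_mul, norm_mul, Complex.norm_real, Real.norm_eq_abs,
          abs_of_nonneg (pow_nonneg htm.1.le _)]
        refine mul_le_mul (mul_le_mul (hbm.1 _) (hcm.1 _) (norm_nonneg _) hC) ?_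
          (pow_nonneg htm.1.le _) (mul_nonneg hC hD)
        exact pow_le_of_le_one htm.1.le htm.2 (by omega)
      · simpa using ht.2.const_mul (C * D)
  have e : (∑ p ∈ S, if 0 ≤ p.1 ∧ 0 ≤ p.2 then
      PowerSeries.coeff p.1.natAbs P * PowerSeries.coeff p.2.natAbs Q else 0) =
      PowerSeries.coeff n (P * Q) := by
    rw [← Finset.sum_filter, PowerSeries.coeff_mul]
    refine Finset.sum_bij' (fun p _ => (p.1.natAbs, p.2.natAbs))
      (fun p _ => ((p.1 : ℤ), (p.2 : ℤ))) ?_ ?_ ?_ ?_ ?_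
    · intro p hp
      simp only [hS, Finset.mem_filter, Finset.mem_product, Finset.mem_Icc] at hp
      rw [HasAntidiagonal.mem_antidiagonal]; omega
    · intro p hp
      rw [HasAntidiagonal.mem_antidiagonal] at hp
      simp only [hS, Finset.mem_filter, Finset.mem_product, Finset.mem_Icc]
      omega
    · intro p hp
      simp only [hS, Finset.mem_filter, Finset.mem_product, Finset.mem_Icc] at hp
      exact Prod.ext (Int.natAbs_of_nonneg hp.2.1) (Int.natAbs_of_nonneg hp.2.2)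
    · intro p _; simp
    · intro p _; rfl
  rw [← e]
  simpa [mulCoeff, hS] using main

theorem isLim_congr {k : ℕ} {f g : ℕ → ℝ → ℂ} {P : PowerSeries ℂ} (h : ∀ m s, f m s = g m s)
    (hf : IsLim U t k f P) : IsLim U t k g P := by
  rwa [show g = f from funext fun m => funext fun s => (h m s).symm]

theorem isLim_const (ht : Scale U t) (k : ℕ) (w : ℂ) :
    IsLim U t k (fun _ _ => w) (PowerSeries.C w) := by
  have := isLim_monomial ht k 0 (c := fun _ => w) tendsto_const_nhds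
  simpa [mode_zero] using this

theorem isLim_sum (ht : Scale U t) {ι : Type*} (S : Finset ι) {k : ℕ} {f : ι → ℕ → ℝ → ℂ}
    {P : ι → PowerSeries ℂ} (h : ∀ i ∈ S, IsLim U t k (f i) (P i)) :
    IsLim U t k (fun m s => ∑ i ∈ S, f i m s) (∑ i ∈ S, P i) := by
  classical
  induction S using Finset.induction_on with
  | empty => simpa using isLim_const ht k 0
  | insert a S ha ih =>
    rw [Finset.sum_insert ha]
    refine isLim_congr (fun m s => (Finset.sum_insert (f := fun i => f i m s) ha).symm) ?_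
    exact (h a (Finset.mem_insert_self a S)).add (ih fun i hi => h i (Finset.mem_insert_of_mem hi))

theorem IsLim.pow (ht : Scale U t) {k : ℕ} {f : ℕ → ℝ → ℂ} {P : PowerSeries ℂ}
    (hf : IsLim U t k f P) (n : ℕ) : IsLim U t k (fun m s => f m s ^ n) (P ^ n) := by
  induction n with
  | zero => simpa using isLim_const ht k 1
  | succ n ih =>
    rw [pow_succ]
    exact isLim_congr (fun m s => (pow_succ (f m s) n).symm) (ih.mul ht hf)

/-- An expansion of a function of order `l + 1` has no limit coefficients up to `l`. -/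
theorem IsLim.coeff_eq_zero (ht : Scale U t) {k l : ℕ} (hl : l ≤ k) {f : ℕ → ℝ → ℂ}
    {P : PowerSeries ℂ} (hf : IsLim U t k f P) {D : ℝ} (hD : 0 ≤ D)
    (hsmall : ∀ᶠ m in (U : Filter ℕ), ∀ s, ‖f m s‖ ≤ D * t m ^ (l + 1)) :
    ∀ j ≤ l, PowerSeries.coeff j P = 0 := by
  obtain ⟨b, ⟨C, hC, hb⟩, hP⟩ := hf
  intro j hj
  refine tendsto_nhds_unique (hP j (hj.trans hl)) ?_
  refine squeeze_zero_norm' (a := fun m => (D + C) * t m) ?_ (by simpa using ht.2.const_mul (D + C))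
  filter_upwards [hb, hsmall, ht.1] with m hbm hsm htm
  obtain ⟨h0, h1⟩ := htm
  set N : ℕ := 2 * k + 1 with hN
  set w : ℝ := 2 * Real.pi / N with hw
  have hN0 : (N : ℂ) ≠ 0 := Nat.cast_ne_zero.2 (by omega)
  have orth : ∀ p ∈ Icc (-(k : ℤ)) k,
      ∑ i ∈ range N, mode p ((i : ℝ) * w) * mode (-(j : ℤ)) ((i : ℝ) * w) =
        if p = (j : ℤ) then (N : ℂ) else 0 := by
    intro p hp
    rw [Finset.mem_Icc] at hp
    set z := Complex.exp ((((p - j : ℤ) : ℂ) * (w : ℂ)) * Complex.I) with hz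
    have e : ∀ i : ℕ, mode p ((i : ℝ) * w) * mode (-(j : ℤ)) ((i : ℝ) * w) = z ^ i := by
      intro i
      rw [← mode_add, hz, ← Complex.exp_nat_mul, mode]
      push_cast; ring_nf
    simp only [e]
    split_ifs with h
    · subst h; simp [hz]
    · have hzN : z ^ N = 1 := by
        rw [hz, ← Complex.exp_nat_mul, show ((N : ℂ) * ((((p - j : ℤ) : ℂ) * (w : ℂ)) * Complex.I))
          = ((p - j : ℤ) : ℂ) * (2 * Real.pi * Complex.I) by rw [hw]; push_cast; field_simp]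
        exact Complex.exp_int_mul_two_pi_mul_I _
      have hz1 : z ≠ 1 := by
        intro h1
        rw [hz, Complex.exp_eq_one_iff] at h1
        obtain ⟨a, ha⟩ := h1
        have h2 : ((p - j : ℤ) : ℂ) * (w : ℂ) = (a : ℂ) * (2 * Real.pi) :=
          mul_right_cancel₀ Complex.I_ne_zero (by rw [ha]; ring)
        have h3 : ((p - j : ℤ) : ℝ) * w = (a : ℝ) * (2 * Real.pi) := by exact_mod_cast h2
        have h4 : ((p - j : ℤ) : ℝ) = (a : ℝ) * N := by
          rw [hw] at h3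
          have hNr : (N : ℝ) ≠ 0 := Nat.cast_ne_zero.2 (by omega)
          field_simp at h3
          linarith
        have h5 : p - j = a * N := by exact_mod_cast h4
        rcases lt_trichotomy a 0 with ha' | ha' | ha'
        · nlinarith
        · subst ha'; omega
        · nlinarith
      rw [geom_sum_eq hz1, hzN, sub_self, zero_div]
  have havg : ∑ i ∈ range N, poly k (t m) (b m) ((i : ℝ) * w) * mode (-(j : ℤ)) ((i : ℝ) * w) =
      (N : ℂ) * (b m j * ((t m ^ j : ℝ) : ℂ)) := by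
    simp only [poly, Finset.sum_mul]
    rw [Finset.sum_comm, Finset.sum_eq_single (j : ℤ)]
    · simp only [mul_assoc, ← Finset.mul_sum, orth (j : ℤ) (by rw [Finset.mem_Icc]; omega), if_true,
        Int.natAbs_natCast]
      ring
    · intro p hp hne
      simp only [mul_assoc, ← Finset.mul_sum, orth p hp, if_neg hne, mul_zero]
    · intro h; exact absurd (Finset.mem_Icc.2 ⟨by omega, by omega⟩) h
  have hbound : ∀ s, ‖poly k (t m) (b m) s‖ ≤ (D + C) * t m ^ (l + 1) := by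
    intro s
    have : ‖poly k (t m) (b m) s‖ ≤ ‖f m s‖ + ‖f m s - poly k (t m) (b m) s‖ := by
      simpa using norm_sub_le (f m s) (f m s - poly k (t m) (b m) s)
    refine this.trans ?_
    rw [add_mul]
    exact add_le_add (hsm s) ((hbm.2 s).trans (mul_le_mul_of_nonneg_left
      (pow_le_pow_of_le_one h0.le h1 (by omega)) hC))
  have h6 : (N : ℝ) * (‖b m j‖ * t m ^ j) ≤ (N : ℝ) * ((D + C) * t m ^ (l + 1)) := by
    have e : ‖(N : ℂ) * (b m j * ((t m ^ j : ℝ) : ℂ))‖ = (N : ℝ) * (‖b m j‖ * t m ^ j) := by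
      rw [norm_mul, norm_mul, Complex.norm_natCast, Complex.norm_real, Real.norm_eq_abs,
        abs_of_nonneg (pow_nonneg h0.le _)]
    rw [← e, ← havg]
    refine (norm_sum_le _ _).trans ((Finset.sum_le_card_nsmul _ _ ((D + C) * t m ^ (l + 1))
      fun i _ => ?_).trans (le_of_eq (by rw [Finset.card_range, nsmul_eq_mul])))
    rw [norm_mul, norm_mode, mul_one]; exact hbound _
  have h7 := le_of_mul_le_mul_left h6 (by positivity)
  refine le_of_mul_le_mul_right (h7.trans ?_) (pow_pos h0 j)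
  rw [mul_assoc, ← pow_succ']
  exact mul_le_mul_of_nonneg_left (pow_le_pow_of_le_one h0.le h1 (by omega)) (by positivity)

end Vale.Agent.P097.Trig
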