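import Vale.Agent.P097.Trig.Asymp

/-!
Expansions of exponentials of small functions.
-/

noncomputable section

namespace Vale.Agent.P097.Trig

open Finset Filter Topology

variable {U : Ultrafilter ℕ} {t : ℕ → ℝ}

/-- An expanded function close to the constant `w`. -/
def Reg (U : Ultrafilter ℕ) (t : ℕ → ℝ) (k : ℕ) (f : ℕ → ℝ → ℂ) (w : ℂ) : Prop :=
  Lev U t k f ∧ Small U t (fun m s => f m s - w)

theorem Small.add {f g : ℕ → ℝ → ℂ} (hf : Small U t f) (hg : Small U t g) :
    Small U t (fun m s => f m s + g m s) := by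
  obtain ⟨C, hC, hf⟩ := hf
  obtain ⟨D, hD, hg⟩ := hg
  refine ⟨C + D, by linarith, ?_⟩
  filter_upwards [hf, hg] with m a b s
  rw [add_mul]; exact (norm_add_le _ _).trans (add_le_add (a s) (b s))

theorem Small.smul {f : ℕ → ℝ → ℂ} (hf : Small U t f) (w : ℂ) :
    Small U t (fun m s => w * f m s) := by
  obtain ⟨C, hC, hf⟩ := hf
  refine ⟨‖w‖ * C, by positivity, ?_⟩
  filter_upwards [hf] with m a s
  rw [norm_mul, mul_assoc]; exact mul_le_mul_of_nonneg_left (a s) (norm_nonneg w)

theorem Small.sub {f g : ℕ → ℝ → ℂ} (hf : Small U t f) (hg : Small U t g) :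
    Small U t (fun m s => f m s - g m s) := by
  simpa [sub_eq_add_neg] using hf.add (hg.smul (-1))

theorem Small.shift {f : ℕ → ℝ → ℂ} (hf : Small U t f) (g : ℝ) :
    Small U t (fun m s => f m (s + g)) := by
  obtain ⟨C, hC, hf⟩ := hf
  refine ⟨C, hC, ?_⟩
  filter_upwards [hf] with m a s using a _

theorem Small.mul (ht : Scale U t) {f g : ℕ → ℝ → ℂ} (hf : Small U t f) (hg : Small U t g) :
    Small U t (fun m s => f m s * g m s) := by
  obtain ⟨C, hC, hf⟩ := hf
  obtain ⟨D, hD, hg⟩ := hg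
  refine ⟨C * D, by positivity, ?_⟩
  filter_upwards [hf, hg, ht.1] with m a b htm s
  rw [norm_mul]
  refine (mul_le_mul (a s) (b s) (norm_nonneg _) (mul_nonneg hC htm.1.le)).trans ?_
  calc C * t m * (D * t m) = C * D * t m * t m := by ring
    _ ≤ C * D * t m := mul_le_of_le_one_right (by nlinarith [mul_nonneg hC hD, htm.1]) htm.2

theorem small_congr {f g : ℕ → ℝ → ℂ} (h : ∀ m s, f m s = g m s) (hf : Small U t f) :
    Small U t g := by
  rwa [show g = f from funext fun m => funext fun s => (h m s).symm]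

theorem small_zero : Small U t (fun _ _ => 0) := ⟨0, le_rfl, Eventually.of_forall fun m s => by simp⟩

theorem Reg.mul (ht : Scale U t) {k : ℕ} {f g : ℕ → ℝ → ℂ} {v w : ℂ} (hf : Reg U t k f v)
    (hg : Reg U t k g w) : Reg U t k (fun m s => f m s * g m s) (v * w) :=
  ⟨hf.1.mul ht hg.1, small_congr (fun m s => by ring)
    (((hf.2.smul w).add (hg.2.smul v)).add (hf.2.mul ht hg.2))⟩

theorem reg_const (ht : Scale U t) (k : ℕ) (w : ℂ) : Reg U t k (fun _ _ => w) w :=
  ⟨lev_const ht k w, small_congr (fun m s => by ring) small_zero⟩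

theorem Reg.smul {k : ℕ} {f : ℕ → ℝ → ℂ} {v : ℂ} (hf : Reg U t k f v) (w : ℂ) :
    Reg U t k (fun m s => w * f m s) (w * v) :=
  ⟨hf.1.smul w, small_congr (fun m s => by ring) (hf.2.smul w)⟩

theorem Reg.sub {k : ℕ} {f g : ℕ → ℝ → ℂ} {v w : ℂ} (hf : Reg U t k f v)
    (hg : Reg U t k g w) : Reg U t k (fun m s => f m s - g m s) (v - w) :=
  ⟨hf.1.sub hg.1, small_congr (fun m s => by ring) (hf.2.sub hg.2)⟩

theorem Reg.shift {k : ℕ} {f : ℕ → ℝ → ℂ} {v : ℂ} (hf : Reg U t k f v) (g : ℝ) :
    Reg U t k (fun m s => f m (s + g)) v :=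
  ⟨hf.1.shift g, hf.2.shift g⟩

theorem Reg.pow (ht : Scale U t) {k : ℕ} {f : ℕ → ℝ → ℂ} {v : ℂ} (hf : Reg U t k f v) (n : ℕ) :
    Reg U t k (fun m s => f m s ^ n) (v ^ n) := by
  induction n with
  | zero => simpa using reg_const ht k 1
  | succ n ih =>
    rw [pow_succ]
    rw [show (fun m s => f m s ^ (n + 1)) = fun m s => f m s ^ n * f m s from
      funext fun m => funext fun s => pow_succ _ _]
    exact ih.mul ht hf

/-- The exponential of a small function minus its linear part gains one order. -/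
theorem lev_exp_rest (ht : Scale U t) {k : ℕ} {f : ℕ → ℝ → ℂ} (hf : Lev U t k f) (sf : Small U t f) :
    Lev U t (k + 1) (fun m s => Complex.exp (f m s) - 1 - f m s) := by
  have hpow : ∀ l : ℕ, Lev U t k (fun m s => f m s ^ (l + 1)) ∧ Small U t (fun m s => f m s ^ (l + 1)) := by
    intro l
    induction l with
    | zero => exact ⟨lev_congr (fun m s => (pow_one _).symm) hf, small_congr (fun m s => (pow_one _).symm) sf⟩
    | succ n ih =>
      exact ⟨lev_congr (fun m s => (pow_succ _ _).symm) (ih.1.mul ht hf),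
        small_congr (fun m s => (pow_succ _ _).symm) (ih.2.mul ht sf)⟩
  have hpoly : Lev U t (k + 1)
      (fun m s => ∑ l ∈ range k, ((l + 2).factorial : ℂ)⁻¹ * f m s ^ (l + 2)) := by
    refine lev_sum ht _ fun l _ => Lev.smul ?_ _
    exact lev_congr (fun m s => (pow_succ _ _).symm) ((hpow l).1.mul_small ht hf (hpow l).2 sf)
  obtain ⟨C, hC, hev⟩ := sf
  have hrem : Lev U t (k + 1)
      (fun m s => Complex.exp (f m s) - ∑ l ∈ range (k + 2), f m s ^ l / (l.factorial : ℂ)) := by
    refine ⟨_, hasExp_zero ht (k + 1) (C := C ^ (k + 2) * 2) (by positivity) ?_⟩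
    have hsm : ∀ᶠ m in (U : Filter ℕ), C * t m ≤ 1 := by
      have : Tendsto (fun m => C * t m) (U : Filter ℕ) (𝓝 0) := by simpa using ht.2.const_mul C
      exact this.eventually (eventually_le_nhds one_pos)
    filter_upwards [hev, hsm, ht.1] with m hm h1 htm s
    have hx : ‖f m s‖ ≤ 1 := (hm s).trans h1
    refine (Complex.exp_bound hx (n := k + 2) (by omega)).trans ?_
    have h2 : (((k + 2).succ : ℕ) : ℝ) * (((k + 2).factorial : ℝ) * ((k + 2 : ℕ) : ℝ))⁻¹ ≤ 2 := by
      have h4 : (1 : ℝ) ≤ ((k + 2).factorial : ℝ) := by exact_mod_cast Nat.factorial_pos _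
      rw [← div_eq_mul_inv, div_le_iff₀ (by positivity)]
      push_cast; nlinarith [Nat.cast_nonneg (α := ℝ) k]
    calc ‖f m s‖ ^ (k + 2) * ((((k + 2).succ : ℕ) : ℝ) * (((k + 2).factorial : ℝ) * ((k + 2 : ℕ) : ℝ))⁻¹)
        ≤ (C * t m) ^ (k + 2) * 2 :=
          mul_le_mul (pow_le_pow_left₀ (norm_nonneg _) (hm s) _) h2 (by positivity)
            (pow_nonneg (mul_nonneg hC htm.1.le) _)
      _ = C ^ (k + 2) * 2 * t m ^ (k + 1 + 1) := by rw [mul_pow]; ring
  refine lev_congr (fun m s => ?_) (hrem.add hpoly)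
  rw [Finset.sum_range_succ' _ (k + 1), Finset.sum_range_succ' _ k]
  simp only [div_eq_inv_mul, Nat.factorial_zero, Nat.factorial_one, pow_zero, pow_one, zero_add,
    Nat.cast_one, inv_one, one_mul, mul_one]
  ring

theorem reg_exp (ht : Scale U t) {k : ℕ} {f : ℕ → ℝ → ℂ} (hf : Lev U t k f) (sf : Small U t f) :
    Reg U t k (fun m s => Complex.exp (f m s)) 1 := by
  constructor
  · rcases k with _ | k
    · refine lev_congr (fun m s => ?_) (((lev_const ht 0 1).add hf).add (g := fun m s =>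
        Complex.exp (f m s) - 1 - f m s) ?_)
      · ring
      obtain ⟨C, hC, hev⟩ := sf
      refine ⟨_, hasExp_zero ht 0 (C := C) hC ?_⟩
      have hsm : Tendsto (fun m => C * t m) (U : Filter ℕ) (𝓝 0) := by simpa using ht.2.const_mul C
      filter_upwards [hev, hsm.eventually (eventually_le_nhds one_pos)] with m hm h1 s
      have hx := (hm s).trans h1
      refine (Complex.norm_exp_sub_one_sub_id_le hx).trans ?_
      rw [zero_add, pow_one, sq]
      exact (mul_le_of_le_one_left (norm_nonneg _) hx).trans (hm s)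
    · obtain ⟨b, C, hC, hev⟩ := hf
      have hlow : Lev U t k f := by
        refine ⟨b, C + C + C, by linarith, ?_⟩
        filter_upwards [hev, ht.1] with m hm htm
        refine ⟨fun j => (hm.1 j).trans (by linarith), fun s => ?_⟩
        obtain ⟨h0, h1⟩ := htm
        have e : poly (k + 1) (t m) (b m) s = poly k (t m) (b m) s +
            (b m (k + 1 : ℕ) * ((t m ^ (k + 1) : ℝ) : ℂ) * mode (k + 1 : ℕ) s +
              b m (-((k + 1 : ℕ) : ℤ)) * ((t m ^ (k + 1) : ℝ) : ℂ) * mode (-((k + 1 : ℕ) : ℤ)) s) := by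
          have hset : Icc (-((k + 1 : ℕ) : ℤ)) ((k + 1 : ℕ) : ℤ) =
              insert ((k + 1 : ℕ) : ℤ) (insert (-((k + 1 : ℕ) : ℤ)) (Icc (-(k : ℤ)) k)) := by
            ext x; simp only [Finset.mem_Icc, Finset.mem_insert]; omega
          rw [poly, poly, hset, Finset.sum_insert (by simp only [Finset.mem_insert, Finset.mem_Icc]; omega),
            Finset.sum_insert (by simp only [Finset.mem_Icc]; omega)]
          simp only [Int.natAbs_natCast, Int.natAbs_neg]
          ring
        have hterm : ∀ j : ℤ, ‖b m j * ((t m ^ (k + 1) : ℝ) : ℂ) * mode j s‖ ≤ C * t m ^ (k + 1) := by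
          intro j
          rw [norm_mul, norm_mul, norm_mode, mul_one, Complex.norm_real, Real.norm_eq_abs,
            abs_of_nonneg (pow_nonneg h0.le _)]
          exact mul_le_mul_of_nonneg_right (hm.1 j) (pow_nonneg h0.le _)
        calc ‖f m s - poly k (t m) (b m) s‖
            = ‖(f m s - poly (k + 1) (t m) (b m) s) +
                (b m (k + 1 : ℕ) * ((t m ^ (k + 1) : ℝ) : ℂ) * mode (k + 1 : ℕ) s +
                b m (-((k + 1 : ℕ) : ℤ)) * ((t m ^ (k + 1) : ℝ) : ℂ) * mode (-((k + 1 : ℕ) : ℤ)) s)‖ := by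
              rw [e]; congr 1; ring
          _ ≤ C * t m ^ (k + 1 + 1) + (C * t m ^ (k + 1) + C * t m ^ (k + 1)) :=
              (norm_add_le _ _).trans (add_le_add (hm.2 s)
                ((norm_add_le _ _).trans (add_le_add (hterm _) (hterm _))))
          _ ≤ C * t m ^ (k + 1) + (C * t m ^ (k + 1) + C * t m ^ (k + 1)) :=
              add_le_add (mul_le_mul_of_nonneg_left (pow_le_pow_of_le_one h0.le h1 (by omega)) hC) le_rfl
          _ = (C + C + C) * t m ^ (k + 1) := by ring
      exact lev_congr (fun m s => by ring)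
        (((lev_const ht (k + 1) 1).add ⟨b, C, hC, hev⟩).add (lev_exp_rest ht hlow sf))
  · obtain ⟨C, hC, hev⟩ := sf
    refine ⟨2 * C, by linarith, ?_⟩
    have hsm : Tendsto (fun m => C * t m) (U : Filter ℕ) (𝓝 0) := by simpa using ht.2.const_mul C
    filter_upwards [hev, hsm.eventually (eventually_le_nhds one_pos)] with m hm h1 s
    refine (Complex.norm_exp_sub_one_le ((hm s).trans h1)).trans ?_
    rw [mul_assoc]; exact mul_le_mul_of_nonneg_left (hm s) two_pos.le

end Vale.Agent.P097.Trig
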