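import Vale.Agent.P097.Trig.Orbit

/-!
The orbit equation of a table whose radius of curvature is a trigonometric polynomial.
-/

noncomputable section

namespace Vale.Agent.P097.Trig

open Real Finset Vale.Agent.P097.Sym

/-- The radius of curvature of the table with Fourier coefficients `h n` of the support function. -/
def rhoOf (N : ℕ) (h : ℕ → ℂ) (u : ℝ) : ℝ :=
  1 + ∑ n ∈ Icc 2 N, 2 * (1 - (n : ℝ) ^ 2) * (h n * Complex.exp (((n : ℂ) * (u : ℂ)) * Complex.I)).re

/-- The boundary term of the harmonic `n`. -/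
def kern (n : ℕ) (th u : ℝ) : ℂ :=
  ((n - 1 : ℕ) : ℂ) * Complex.exp ((((n : ℂ) + 1) * (u : ℂ) - (th : ℂ)) * Complex.I) -
    ((n + 1 : ℕ) : ℂ) * Complex.exp ((((n : ℂ) - 1) * (u : ℂ) + (th : ℂ)) * Complex.I)

theorem hasDerivAt_kern {n : ℕ} (hn : 1 ≤ n) (th u : ℝ) :
    HasDerivAt (fun u => kern n th u)
      (((2 * (1 - (n : ℝ) ^ 2) * Real.sin (u - th) : ℝ) : ℂ) *
        Complex.exp (((n : ℂ) * (u : ℂ)) * Complex.I)) u := by
  have e : ∀ a b : ℂ, HasDerivAt (fun u : ℝ => Complex.exp ((a * (u : ℂ) + b) * Complex.I))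
      (Complex.exp ((a * (u : ℂ) + b) * Complex.I) * (a * Complex.I)) u := fun a b => by
    have h1 : HasDerivAt (fun u : ℝ => (a * (u : ℂ) + b) * Complex.I) (a * Complex.I) u := by
      simpa using (((hasDerivAt_id u).ofReal_comp.const_mul a).add_const b).mul_const Complex.I
    exact h1.cexp
  have h1 := ((e ((n : ℂ) + 1) (-(th : ℂ))).const_mul ((n - 1 : ℕ) : ℂ)).sub
    ((e ((n : ℂ) - 1) (th : ℂ)).const_mul ((n + 1 : ℕ) : ℂ))
  refine (h1.congr_of_eventuallyEq (Filter.Eventually.of_forall fun v => by simp only [kern, Pi.sub_apply]; ring_nf)).congr_deriv ?_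
  have e1 : Complex.exp ((((n : ℂ) + 1) * (u : ℂ) + -(th : ℂ)) * Complex.I) =
      Complex.exp (((n : ℂ) * (u : ℂ)) * Complex.I) * Complex.exp (((u - th : ℝ) : ℂ) * Complex.I) := by
    rw [← Complex.exp_add]; push_cast; ring_nf
  have e2 : Complex.exp ((((n : ℂ) - 1) * (u : ℂ) + (th : ℂ)) * Complex.I) =
      Complex.exp (((n : ℂ) * (u : ℂ)) * Complex.I) * Complex.exp ((-(u - th : ℝ) : ℂ) * Complex.I) := by
    rw [← Complex.exp_add]; push_cast; ring_nf
  rw [e1, e2]
  generalize Complex.exp (((n : ℂ) * (u : ℂ)) * Complex.I) = A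
  rw [Complex.exp_mul_I, Complex.exp_mul_I, Complex.cos_neg, Complex.sin_neg]
  push_cast [Nat.cast_sub hn, Complex.ofReal_sin]
  linear_combination (2 * ((n : ℂ) ^ 2 - 1) * A *
    Complex.sin ((u : ℂ) - (th : ℂ))) * Complex.I_sq

theorem height_trig {N : ℕ} {h : ℕ → ℂ} (hT : IsTable (rhoOf N h)) (th x y : ℝ) :
    height (rhoOf N h) th x y =
      Real.cos (x - th) - Real.cos (y - th) + ∑ n ∈ Icc 2 N, (h n * (kern n th y - kern n th x)).re := by
  have hd : ∀ u, HasDerivAt (fun u => height (rhoOf N h) th x u -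
      (Real.cos (x - th) - Real.cos (u - th) + ∑ n ∈ Icc 2 N, (h n * (kern n th u - kern n th x)).re)) 0 u := by
    intro u
    have h2 : HasDerivAt (fun u => Real.cos (u - th)) (-Real.sin (u - th)) u :=
      (Real.hasDerivAt_cos (u - th)).comp_sub_const u th
    have h3 : HasDerivAt (fun u => ∑ n ∈ Icc 2 N, (h n * (kern n th u - kern n th x)).re)
        (∑ n ∈ Icc 2 N, (h n * (((2 * (1 - (n : ℝ) ^ 2) * Real.sin (u - th) : ℝ) : ℂ) *
          Complex.exp (((n : ℂ) * (u : ℂ)) * Complex.I))).re) u := by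
      refine HasDerivAt.fun_sum fun n hn => ?_
      have := ((hasDerivAt_kern (n := n) (by simp only [Finset.mem_Icc] at hn; omega) th u).sub_const
        (kern n th x)).const_mul (h n)
      exact Complex.reCLM.hasFDerivAt.comp_hasDerivAt u this
    refine ((hasDerivAt_height hT.1 th x u).sub ((h2.const_sub _).add h3)).congr_deriv ?_
    rw [rhoOf, add_mul, one_mul, neg_neg, Finset.sum_mul]
    rw [sub_eq_zero]
    refine congrArg₂ (· + ·) rfl (Finset.sum_congr rfl fun n _ => ?_)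
    rw [mul_left_comm (h n), Complex.re_ofReal_mul]
    ring
  have := is_const_of_deriv_eq_zero (fun u => (hd u).differentiableAt) (fun u => (hd u).deriv) y x
  simp only [height_self, sub_self, mul_zero, Complex.zero_re, Finset.sum_const_zero] at this
  linarith

/-- The bracket of the harmonic `n` at one neighbour. -/
def bracket (n : ℕ) (w p pn : ℂ) : ℂ :=
  ((n - 1 : ℕ) : ℂ) * w ^ (n + 1) * pn ^ (n + 1) * p ^ (n - 1) -
    ((n + 1 : ℕ) : ℂ) * w ^ (n - 1) * pn ^ (n - 1) * p ^ (n + 1)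

theorem kern_eq {n : ℕ} (hn : 1 ≤ n) (s b p pn : ℝ) :
    kern n (s + p) (s + b + (pn + p) / 2) =
      Complex.exp (((n : ℂ) * (s : ℂ)) * Complex.I) * bracket n (Complex.exp ((b : ℂ) * Complex.I))
        (Complex.exp (((p / 2 : ℝ) : ℂ) * Complex.I)) (Complex.exp (((pn / 2 : ℝ) : ℂ) * Complex.I)) := by
  obtain ⟨m, rfl⟩ : ∃ m, n = m + 1 := ⟨n - 1, by omega⟩
  simp only [kern, bracket, show m + 1 - 1 = m from rfl, ← Complex.exp_nat_mul, mul_sub]
  have e : ∀ c a1 a2 a3 a4 : ℂ, Complex.exp a1 * (c * Complex.exp a2 * Complex.exp a3 * Complex.exp a4) =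
      c * Complex.exp (a1 + a2 + a3 + a4) := fun c a1 a2 a3 a4 => by
    rw [Complex.exp_add, Complex.exp_add, Complex.exp_add]; ring
  rw [e, e]
  push_cast
  ring_nf

theorem two_cos_eq (b p pn : ℝ) :
    (2 * Real.cos (b + (pn - p) / 2) : ℂ) =
      Complex.exp ((b : ℂ) * Complex.I) * Complex.exp (((pn / 2 : ℝ) : ℂ) * Complex.I) *
          Complex.exp (((-p / 2 : ℝ) : ℂ) * Complex.I) +
        Complex.exp (((-b : ℝ) : ℂ) * Complex.I) * Complex.exp (((-pn / 2 : ℝ) : ℂ) * Complex.I) *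
          Complex.exp (((p / 2 : ℝ) : ℂ) * Complex.I) := by
  rw [Complex.ofReal_cos, Complex.two_cos, ← Complex.exp_add, ← Complex.exp_add, ← Complex.exp_add,
    ← Complex.exp_add]
  push_cast
  ring_nf

/-- The orbit equation in complex form. -/
theorem equation_complex {N : ℕ} {h : ℕ → ℂ} (hT : IsTable (rhoOf N h)) {s b : ℝ} {p pl pr : ℝ}
    (heq : height (rhoOf N h) (s + p) (s - b + (pl + p) / 2) (s + b + (p + pr) / 2) = 0) :
    (Complex.exp (((-b : ℝ) : ℂ) * Complex.I) * Complex.exp (((pl / 2 : ℝ) : ℂ) * Complex.I) *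
          Complex.exp (((-p / 2 : ℝ) : ℂ) * Complex.I) +
        Complex.exp ((b : ℂ) * Complex.I) * Complex.exp (((-pl / 2 : ℝ) : ℂ) * Complex.I) *
          Complex.exp (((p / 2 : ℝ) : ℂ) * Complex.I)) -
      (Complex.exp ((b : ℂ) * Complex.I) * Complex.exp (((pr / 2 : ℝ) : ℂ) * Complex.I) *
          Complex.exp (((-p / 2 : ℝ) : ℂ) * Complex.I) +
        Complex.exp (((-b : ℝ) : ℂ) * Complex.I) * Complex.exp (((-pr / 2 : ℝ) : ℂ) * Complex.I) *
          Complex.exp (((p / 2 : ℝ) : ℂ) * Complex.I)) +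
      ∑ n ∈ Icc 2 N,
        (h n * Complex.exp (((n : ℂ) * (s : ℂ)) * Complex.I) *
          (bracket n (Complex.exp ((b : ℂ) * Complex.I)) (Complex.exp (((p / 2 : ℝ) : ℂ) * Complex.I))
              (Complex.exp (((pr / 2 : ℝ) : ℂ) * Complex.I)) -
            bracket n (Complex.exp (((-b : ℝ) : ℂ) * Complex.I))
              (Complex.exp (((p / 2 : ℝ) : ℂ) * Complex.I))
              (Complex.exp (((pl / 2 : ℝ) : ℂ) * Complex.I))) +
          starRingEnd ℂ (h n) * Complex.exp ((((-(n : ℤ)) : ℤ) : ℂ) * (s : ℂ) * Complex.I) *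
          (bracket n (Complex.exp (((-b : ℝ) : ℂ) * Complex.I))
              (Complex.exp (((-p / 2 : ℝ) : ℂ) * Complex.I))
              (Complex.exp (((-pr / 2 : ℝ) : ℂ) * Complex.I)) -
            bracket n (Complex.exp ((b : ℂ) * Complex.I)) (Complex.exp (((-p / 2 : ℝ) : ℂ) * Complex.I))
              (Complex.exp (((-pl / 2 : ℝ) : ℂ) * Complex.I)))) = 0 := by
  rw [height_trig hT] at heq
  have hconj : ∀ r : ℝ, starRingEnd ℂ (Complex.exp ((r : ℂ) * Complex.I)) =
      Complex.exp (((-r : ℝ) : ℂ) * Complex.I) := fun r => by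
    rw [← Complex.exp_conj]; simp
  have hc := congrArg (fun r : ℝ => ((2 * r : ℝ) : ℂ)) heq
  simp only [mul_zero, Complex.ofReal_zero, mul_add, mul_sub, Complex.ofReal_add, Complex.ofReal_sub,
    Complex.ofReal_mul, Complex.ofReal_ofNat, Complex.ofReal_sum, Finset.mul_sum] at hc
  have cx := two_cos_eq (-b) p pl
  rw [show -b + (pl - p) / 2 = s - b + (pl + p) / 2 - (s + p) by ring] at cx
  have cy := two_cos_eq b p pr
  rw [show b + (pr - p) / 2 = s + b + (p + pr) / 2 - (s + p) by ring] at cy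
  rw [cx, cy, neg_neg] at hc
  rw [← hc]
  refine congrArg₂ (· + ·) rfl (Finset.sum_congr rfl fun n hn => ?_)
  have hn1 : 1 ≤ n := by simp only [Finset.mem_Icc] at hn; omega
  rw [show (s - b + (pl + p) / 2) = s + -b + (pl + p) / 2 by ring,
    show (s + b + (p + pr) / 2) = s + b + (pr + p) / 2 by ring, kern_eq hn1, kern_eq hn1]
  have key : ∀ z : ℂ, (2 : ℂ) * ((z.re : ℝ) : ℂ) = z + starRingEnd ℂ z := fun z => by
    rw [Complex.add_conj]; push_cast; ring
  rw [key]
  simp only [map_mul, map_sub, bracket, map_pow, map_natCast, hconj]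
  have en : starRingEnd ℂ (Complex.exp (((n : ℂ) * (s : ℂ)) * Complex.I)) =
      Complex.exp ((((-(n : ℤ)) : ℤ) : ℂ) * (s : ℂ) * Complex.I) := by
    rw [← Complex.exp_conj]; simp
  rw [en]
  simp only [neg_neg, neg_div]
  push_cast
  ring

end Vale.Agent.P097.Trig
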