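import Vale.Agent.P097.Trig.Bootstrap
import Vale.Agent.P097.Trig.Equation
import Vale.Agent.P097.Trig.Algebra

/-!
The scaling limit of periodic orbit families gives formal solutions.
-/

noncomputable section

namespace Vale.Agent.P097.Trig

open Finset Filter Topology

variable {U : Ultrafilter ℕ} {t : ℕ → ℝ}

theorem lev_congr_ev {k : ℕ} {f g : ℕ → ℝ → ℂ}
    (h : ∀ᶠ m in (U : Filter ℕ), ∀ s, f m s = g m s) (hf : Lev U t k f) : Lev U t k g := by
  obtain ⟨b, C, hC, hev⟩ := hf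
  refine ⟨b, C, hC, ?_⟩
  filter_upwards [h, hev] with m hm he
  exact ⟨he.1, fun s => hm s ▸ he.2 s⟩

theorem isLim_change {k : ℕ} {f : ℕ → ℝ → ℂ} {P P' : PowerSeries ℂ}
    (h : ∀ j ≤ k, PowerSeries.coeff j P = PowerSeries.coeff j P') (hf : IsLim U t k f P) :
    IsLim U t k f P' := by
  obtain ⟨b, hb, hl⟩ := hf
  exact ⟨b, hb, fun j hj => h j hj ▸ hl j hj⟩

/-- `exp (w i f)` for a real function `f`. -/
def wave (w : ℝ) (f : ℕ → ℝ → ℝ) (m : ℕ) (s : ℝ) : ℂ :=
  Complex.exp (((w * f m s : ℝ) : ℂ) * Complex.I)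

/-- The data given by the periodic families. -/
structure Data (U : Ultrafilter ℕ) (t : ℕ → ℝ) (N q : ℕ) (phi : ℕ → ℝ → ℝ) (a : ℕ → ℕ → ℂ) : Prop where
  scale : Scale U t
  coeffs : ∀ᶠ m in (U : Filter ℕ), ∀ n, ‖a m n‖ ≤ 1
  small : Small U t (fun m s => (phi m s : ℂ))
  periodic : ∀ᶠ m in (U : Filter ℕ), ∀ s, phi m (s + 2 * Real.pi) = phi m s
  gauge : ∀ᶠ m in (U : Filter ℕ), ∀ s,
    ∑ i ∈ range q, Real.sin (phi m (s + (i : ℝ) * (2 * Real.pi / q))) = 0
  eqn : ∀ᶠ m in (U : Filter ℕ), ∀ s,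
    (Complex.exp (((-(Real.pi / q) : ℝ) : ℂ) * Complex.I) * wave (1 / 2) phi m (s + -(2 * Real.pi / q)) *
          wave (-1 / 2) phi m s +
        Complex.exp (((Real.pi / q : ℝ) : ℂ) * Complex.I) * wave (-1 / 2) phi m (s + -(2 * Real.pi / q)) *
          wave (1 / 2) phi m s) -
      (Complex.exp (((Real.pi / q : ℝ) : ℂ) * Complex.I) * wave (1 / 2) phi m (s + 2 * Real.pi / q) *
          wave (-1 / 2) phi m s +
        Complex.exp (((-(Real.pi / q) : ℝ) : ℂ) * Complex.I) * wave (-1 / 2) phi m (s + 2 * Real.pi / q) *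
          wave (1 / 2) phi m s) +
      ∑ n ∈ Icc 2 N,
        (a m n * ((t m ^ (n : ℤ).natAbs : ℝ) : ℂ) * mode (n : ℤ) s *
          (bracket n (Complex.exp (((Real.pi / q : ℝ) : ℂ) * Complex.I)) (wave (1 / 2) phi m s)
              (wave (1 / 2) phi m (s + 2 * Real.pi / q)) -
            bracket n (Complex.exp (((-(Real.pi / q) : ℝ) : ℂ) * Complex.I)) (wave (1 / 2) phi m s)
              (wave (1 / 2) phi m (s + -(2 * Real.pi / q)))) +
          starRingEnd ℂ (a m n) * ((t m ^ (-(n : ℤ)).natAbs : ℝ) : ℂ) * mode (-(n : ℤ)) s *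
          (bracket n (Complex.exp (((-(Real.pi / q) : ℝ) : ℂ) * Complex.I)) (wave (-1 / 2) phi m s)
              (wave (-1 / 2) phi m (s + 2 * Real.pi / q)) -
            bracket n (Complex.exp (((Real.pi / q : ℝ) : ℂ) * Complex.I)) (wave (-1 / 2) phi m s)
              (wave (-1 / 2) phi m (s + -(2 * Real.pi / q))))) = 0

variable {N q : ℕ} {phi : ℕ → ℝ → ℝ} {a : ℕ → ℕ → ℂ}

theorem reg_wave (ht : Scale U t) {k : ℕ} (hl : Lev U t k (fun m s => (phi m s : ℂ)))
    (hs : Small U t (fun m s => (phi m s : ℂ))) (w : ℝ) : Reg U t k (wave w phi) 1 := by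
  have h : ∀ (m : ℕ) (s : ℝ), ((w : ℂ) * Complex.I) * (phi m s : ℂ) =
      ((w * phi m s : ℝ) : ℂ) * Complex.I := fun m s => by push_cast; ring
  exact reg_exp ht (lev_congr h (hl.smul _)) (small_congr h (hs.smul _))

theorem reg_bracket (ht : Scale U t) {k : ℕ} {p pn : ℕ → ℝ → ℂ} (hp : Reg U t k p 1)
    (hpn : Reg U t k pn 1) (n : ℕ) (w : ℂ) :
    Reg U t k (fun m s => bracket n w (p m s) (pn m s)) (bracket n w 1 1) :=
  (((reg_const ht k _).mul ht (hpn.pow ht _)).mul ht (hp.pow ht _)).sub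
    (((reg_const ht k _).mul ht (hpn.pow ht _)).mul ht (hp.pow ht _))

theorem lev_term (ht : Scale U t) {k : ℕ} {j : ℤ} (hj : j ≠ 0) {c : ℕ → ℂ}
    (hc : ∀ᶠ m in (U : Filter ℕ), ‖c m‖ ≤ 1) {g : ℕ → ℝ → ℂ} {w : ℂ} (hg : Reg U t k g w) :
    Lev U t (k + 1) (fun m s => c m * ((t m ^ j.natAbs : ℝ) : ℂ) * mode j s * g m s) := by
  set f := fun m s => c m * ((t m ^ j.natAbs : ℝ) : ℂ) * mode j s with hf
  have f1 : Lev U t (k + 1) f := ⟨_, hasExp_monomial ht (k + 1) j zero_le_one hc⟩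
  have f0 : Lev U t k f := ⟨_, hasExp_monomial ht k j zero_le_one hc⟩
  have fs : Small U t f := by
    refine ⟨1, zero_le_one, ?_⟩
    filter_upwards [hc, ht.1] with m hm htm s
    simp only [hf, norm_mul, norm_mode, mul_one, Complex.norm_real, Real.norm_eq_abs,
      abs_of_nonneg (pow_nonneg htm.1.le _)]
    exact mul_le_mul hm (pow_le_of_le_one htm.1.le htm.2 (Int.natAbs_ne_zero.2 hj))
      (pow_nonneg htm.1.le _) zero_le_one
  exact lev_congr (fun m s => by simp only [hf]; ring)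
    ((f1.smul w).add (f0.mul_small ht (hg.1.sub (lev_const ht k w)) fs hg.2))

theorem Data.step (D : Data U t N q phi a) (hq : 2 ≤ q) {k : ℕ}
    (hl : Lev U t k (fun m s => (phi m s : ℂ))) : Lev U t (k + 1) (fun m s => (phi m s : ℂ)) := by
  set F : ℕ → ℝ → ℂ := fun m s => (phi m s : ℂ) with hF
  set al : ℝ := 2 * Real.pi / q with hal
  set z := Complex.exp (((Real.pi / q : ℝ) : ℂ) * Complex.I) with hz
  set z' := Complex.exp (((-(Real.pi / q) : ℝ) : ℂ) * Complex.I) with hz'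
  set sb : ℂ := (Real.sin (Real.pi / q) : ℂ) with hsb
  have hsb0 : sb ≠ 0 := by
    rw [hsb, Complex.ofReal_ne_zero]
    have hq' : (1 : ℝ) < q := by exact_mod_cast hq
    exact (Real.sin_pos_of_pos_of_lt_pi (by positivity) (div_lt_self Real.pi_pos hq')).ne'
  have hz2 : (z' - z) * Complex.I = 2 * sb := by
    have e : z = Complex.cos ((Real.pi / q : ℝ) : ℂ) + Complex.sin ((Real.pi / q : ℝ) : ℂ) * Complex.I :=
      Complex.exp_mul_I _
    have e' : z' = Complex.cos ((Real.pi / q : ℝ) : ℂ) - Complex.sin ((Real.pi / q : ℝ) : ℂ) * Complex.I := by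
      rw [hz', Complex.exp_mul_I, Complex.ofReal_neg, Complex.cos_neg, Complex.sin_neg]; ring
    rw [e, e', hsb, Complex.ofReal_sin]
    linear_combination (-2 * Complex.sin ((Real.pi / q : ℝ) : ℂ)) * Complex.I_sq
  -- the quadratic remainders
  let R : (ℕ → ℝ → ℂ) → ℕ → ℝ → ℂ := fun f m s => Complex.exp (f m s) - 1 - f m s
  have hR : ∀ f, Lev U t k f → Small U t f → Lev U t (k + 1) (R f) :=
    fun f h1 h2 => lev_exp_rest D.scale h1 h2
  let u : ℝ → ℕ → ℝ → ℂ := fun g m s => (Complex.I / 2) * (F m (s + g) - F m s)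
  have hu : ∀ g : ℝ, ∀ w : ℂ, Lev U t (k + 1) (R (fun m s => w * u g m s)) := fun g w =>
    hR _ ((((hl.shift g).sub hl).smul _).smul w) ((((D.small.shift g).sub D.small).smul _).smul w)
  have hwave : ∀ (g : ℝ) (m : ℕ) (s : ℝ),
      wave (1 / 2) phi m (s + g) * wave (-1 / 2) phi m s = Complex.exp (u g m s) ∧
      wave (-1 / 2) phi m (s + g) * wave (1 / 2) phi m s = Complex.exp ((-1 : ℂ) * u g m s) := by
    intro g m s
    simp only [wave, u, hF, ← Complex.exp_add]
    constructor <;> push_cast <;> ring_nf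
  let T : ℕ → ℕ → ℝ → ℂ := fun n m s =>
    a m n * ((t m ^ (n : ℤ).natAbs : ℝ) : ℂ) * mode (n : ℤ) s *
      (bracket n z (wave (1 / 2) phi m s) (wave (1 / 2) phi m (s + al)) -
        bracket n z' (wave (1 / 2) phi m s) (wave (1 / 2) phi m (s + -al))) +
    starRingEnd ℂ (a m n) * ((t m ^ (-(n : ℤ)).natAbs : ℝ) : ℂ) * mode (-(n : ℤ)) s *
      (bracket n z' (wave (-1 / 2) phi m s) (wave (-1 / 2) phi m (s + al)) -
        bracket n z (wave (-1 / 2) phi m s) (wave (-1 / 2) phi m (s + -al)))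
  have hT : ∀ n ∈ Icc 2 N, Lev U t (k + 1) (T n) := by
    intro n hn
    have hn0 : (n : ℤ) ≠ 0 := by simp only [Finset.mem_Icc] at hn; omega
    have w1 := reg_wave D.scale hl D.small (1 / 2)
    have w2 := reg_wave D.scale hl D.small (-1 / 2)
    refine (lev_term D.scale hn0 (D.coeffs.mono fun m hm => hm n)
      ((reg_bracket D.scale w1 (w1.shift al) n z).sub (reg_bracket D.scale w1 (w1.shift (-al)) n z'))).add
      (lev_term D.scale (neg_ne_zero.2 hn0) ?_
      ((reg_bracket D.scale w2 (w2.shift al) n z').sub (reg_bracket D.scale w2 (w2.shift (-al)) n z)))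
    exact D.coeffs.mono fun m hm => by rw [RCLike.norm_conj]; exact hm n
  let d : ℕ → ℝ → ℂ := fun m s => F m (s + al) + F m (s + -al) - 2 * F m s
  have hd : Lev U t (k + 1) d := by
    refine lev_congr_ev ?_ (((((((hu (-al) 1).smul z').add ((hu (-al) (-1)).smul z)).sub
      (((hu al 1).smul z).add ((hu al (-1)).smul z'))).add (lev_sum D.scale _ hT))).smul (-sb⁻¹))
    filter_upwards [D.eqn] with m hm s
    have he := hm s
    rw [← hal] at he
    rw [← hz, ← hz'] at he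
    simp only [mul_assoc z, mul_assoc z', (hwave _ m s).1, (hwave _ m s).2] at he
    simp only [R, T, d, one_mul, neg_one_mul] at he ⊢
    have hinv : sb⁻¹ * sb = 1 := inv_mul_cancel₀ hsb0
    linear_combination (-sb⁻¹) * he + (F m (s + al) + F m (s + -al) - 2 * F m s) * hinv
      + (sb⁻¹ / 2 * (F m (s + al) + F m (s + -al) - 2 * F m s)) * hz2
  let G : ℕ → ℕ → ℝ → ℂ := fun l m s => ∑ j ∈ range l, d m (s + ((j : ℝ) + 1) * al)
  have hG : ∀ l, Lev U t (k + 1) (G l) := fun l => lev_sum D.scale _ fun j _ => hd.shift _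
  let e0 : ℕ → ℝ → ℂ := fun m s => (-(q : ℂ)⁻¹) * ∑ l ∈ range q, G l m s
  have he0 : Lev U t (k + 1) e0 := (lev_sum D.scale _ fun l _ => hG l).smul _
  let H : ℕ → ℕ → ℝ → ℂ := fun i m s => ∑ l ∈ range i, (e0 m s + G l m s)
  have hH : ∀ i, Lev U t (k + 1) (H i) := fun i => lev_sum D.scale _ fun l _ => he0.add (hG l)
  let r : ℕ → ℝ → ℂ := fun m s => (-(1 / (2 * Complex.I))) *
    (R (fun m s => Complex.I * F m s) m s - R (fun m s => (-Complex.I) * F m s) m s)
  have hr : Lev U t (k + 1) r :=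
    ((hR _ (hl.smul _) (D.small.smul _)).sub (hR _ (hl.smul _) (D.small.smul _))).smul _
  let S : ℕ → ℝ → ℂ := fun m s => ∑ i ∈ range q, r m (s + (i : ℝ) * al)
  have hS : Lev U t (k + 1) S := lev_sum D.scale _ fun i _ => hr.shift _
  refine lev_congr_ev ?_ ((hS.sub (lev_sum D.scale (range q) fun i _ => hH i)).smul ((q : ℂ)⁻¹))
  filter_upwards [D.periodic, D.gauge] with m hper hga s
  set e : ℕ → ℂ := fun l => F m (s + ((l : ℝ) + 1) * al) - F m (s + (l : ℝ) * al) with he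
  have hde : ∀ j : ℕ, d m (s + ((j : ℝ) + 1) * al) = e (j + 1) - e j := by
    intro j
    simp only [d, he]
    push_cast
    rw [show s + ((j : ℝ) + 1) * al + al = s + ((j : ℝ) + 1 + 1) * al by ring,
      show s + ((j : ℝ) + 1) * al + -al = s + (j : ℝ) * al by ring]
    ring
  have hGe : ∀ l, G l m s = e l - e 0 := by
    intro l
    simp only [G, hde]
    exact Finset.sum_range_sub e l
  have hq0 : (q : ℂ) ≠ 0 := Nat.cast_ne_zero.2 (by omega)
  have hsum : ∑ l ∈ range q, e l = 0 := by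
    have h1 := Finset.sum_range_sub (fun l : ℕ => F m (s + (l : ℝ) * al)) q
    have h2 : F m (s + (q : ℝ) * al) = F m s := by
      rw [show (q : ℝ) * al = 2 * Real.pi by
        rw [hal]; have : (q : ℝ) ≠ 0 := Nat.cast_ne_zero.2 (by omega); field_simp]
      simp only [hF, hper]
    simp only [he]
    rw [show (∑ l ∈ range q, (F m (s + ((l : ℝ) + 1) * al) - F m (s + (l : ℝ) * al))) =
      ∑ l ∈ range q, (F m (s + ((l + 1 : ℕ) : ℝ) * al) - F m (s + (l : ℝ) * al)) from
      Finset.sum_congr rfl fun l _ => by push_cast; ring]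
    rw [h1, h2, Nat.cast_zero, zero_mul, add_zero, sub_self]
  have he0v : e0 m s = e 0 := by
    simp only [e0, hGe, Finset.sum_sub_distrib, hsum, Finset.sum_const, Finset.card_range, zero_sub,
      nsmul_eq_mul]
    field_simp
  have hHi : ∀ i : ℕ, H i m s = F m (s + (i : ℝ) * al) - F m s := by
    intro i
    simp only [H, he0v, hGe, add_sub_cancel, he]
    have h1 := Finset.sum_range_sub (fun l : ℕ => F m (s + (l : ℝ) * al)) i
    simp only [Nat.cast_zero, zero_mul, add_zero] at h1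
    rw [← h1]
    exact Finset.sum_congr rfl fun l _ => by push_cast; ring
  have hSv : S m s = ∑ i ∈ range q, F m (s + (i : ℝ) * al) := by
    have hrv : ∀ x : ℝ, r m x = F m x - ((Real.sin (phi m x) : ℝ) : ℂ) := by
      intro x
      have e1 := Complex.exp_mul_I (x := ((phi m x : ℝ) : ℂ))
      have e2 := Complex.exp_mul_I (x := -((phi m x : ℝ) : ℂ))
      rw [Complex.cos_neg, Complex.sin_neg] at e2
      simp only [r, R, hF, Complex.ofReal_sin]
      rw [mul_comm Complex.I, e1, show -Complex.I * (phi m x : ℂ) = -(phi m x : ℂ) * Complex.I by ring, e2]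
      field_simp
      ring
    simp only [S, hrv, Finset.sum_sub_distrib]
    have := congrArg (Complex.ofReal) (hga s)
    rw [← hal] at this
    push_cast at this ⊢
    rw [this, sub_zero]
  simp only [hHi, hSv, Finset.sum_sub_distrib, Finset.sum_const, Finset.card_range, nsmul_eq_mul,
    sub_sub_cancel]
  show (q : ℂ)⁻¹ * ((q : ℂ) * F m s) = F m s
  field_simp

theorem Data.lev_all (D : Data U t N q phi a) (hq : 2 ≤ q) :
    ∀ k, Lev U t k (fun m s => (phi m s : ℂ)) := by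
  intro k
  induction k with
  | zero =>
    obtain ⟨C, hC, h⟩ := D.small
    refine ⟨_, hasExp_zero D.scale 0 hC ?_⟩
    filter_upwards [h] with m hm s
    simpa using hm s
  | succ k ih => exact D.step hq ih

theorem series_bracket {P Q : PowerSeries ℂ} (hPQ : P * Q = 1) (z c : ℂ) (Pn : PowerSeries ℂ) (n : ℕ)
    (hn : 1 ≤ n) :
    PowerSeries.C c * PowerSeries.X ^ n *
        (PowerSeries.C (((n - 1 : ℕ) : ℂ) * z ^ (n + 1)) * Pn ^ (n + 1) * P ^ (n - 1) -
          PowerSeries.C (((n + 1 : ℕ) : ℂ) * z ^ (n - 1)) * Pn ^ (n - 1) * P ^ (n + 1)) =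
      PowerSeries.C ((-1) ^ n * c) * PowerSeries.X ^ n * P ^ (2 * n) *
        (((n + 1 : ℕ) : PowerSeries ℂ) * (PowerSeries.C (-z) * Q * Pn) ^ (n - 1) -
          ((n - 1 : ℕ) : PowerSeries ℂ) * (PowerSeries.C (-z) * Q * Pn) ^ (n + 1)) := by
  obtain ⟨j, rfl⟩ : ∃ j, n = j + 1 := ⟨n - 1, by omega⟩
  simp only [show j + 1 - 1 = j from rfl, map_mul, map_pow, map_neg, map_one, map_natCast, mul_pow]
  have e1 : P ^ (2 * (j + 1)) * Q ^ j = P ^ (j + 2) := by
    rw [show 2 * (j + 1) = (j + 2) + j by ring, pow_add, mul_assoc, ← mul_pow, hPQ, one_pow, mul_one]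
  have e2 : P ^ (2 * (j + 1)) * Q ^ (j + 1 + 1) = P ^ j := by
    rw [show 2 * (j + 1) = j + (j + 1 + 1) by ring, pow_add, mul_assoc, ← mul_pow, hPQ, one_pow, mul_one]
  set Cz := PowerSeries.C z
  set Cc := PowerSeries.C c
  have s1 : (-1 : PowerSeries ℂ) ^ (j + 1) * (-Cz) ^ j = -(Cz ^ j) := by
    rw [neg_pow Cz, ← mul_assoc, ← pow_add, show j + 1 + j = 2 * j + 1 by ring, pow_succ, pow_mul]
    simp
  have s2 : (-1 : PowerSeries ℂ) ^ (j + 1) * (-Cz) ^ (j + 1 + 1) = -(Cz ^ (j + 1 + 1)) := by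
    rw [neg_pow Cz, ← mul_assoc, ← pow_add, show j + 1 + (j + 1 + 1) = 2 * (j + 1) + 1 by ring,
      pow_succ, pow_mul]
    simp
  linear_combination (Cc * PowerSeries.X ^ (j + 1) * ((j + 1 + 1 : ℕ) : PowerSeries ℂ) * Pn ^ j * Cz ^ j) * e1
    - (Cc * PowerSeries.X ^ (j + 1) * (j : PowerSeries ℂ) * Pn ^ (j + 1 + 1) * Cz ^ (j + 1 + 1)) * e2
    - (Cc * PowerSeries.X ^ (j + 1) * P ^ (2 * (j + 1)) * ((j + 1 + 1 : ℕ) : PowerSeries ℂ) * Pn ^ j * Q ^ j) * s1
    + (Cc * PowerSeries.X ^ (j + 1) * P ^ (2 * (j + 1)) * (j : PowerSeries ℂ) * Pn ^ (j + 1 + 1) * Q ^ (j + 1 + 1)) * s2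

/-- The limit of the families is a formal solution. -/
theorem Data.formal (D : Data U t N q phi a) (hq : 2 ≤ q) (hodd : Odd q) {a0 : ℕ → ℂ}
    (hlim : ∀ n, Tendsto (fun m => a m n) (U : Filter ℕ) (𝓝 (a0 n))) (M : ℕ) :
    ∃ x : ℂ, x ^ q = 1 ∧ x ≠ 1 ∧ ∃ P Q : PowerSeries ℂ, P * Q = 1 ∧
      PowerSeries.constantCoeff P = 1 ∧
      (∀ j ≤ M, PowerSeries.coeff j (side N (fun n => (-1) ^ n * a0 n) x (x ^ (q - 1)) P Q -
        side N (fun n => (-1) ^ n * a0 n) (x ^ (q - 1)) x P Q) = 0) ∧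
      (∀ j ≤ M, 0 < j → q ∣ j → PowerSeries.coeff j (P ^ 2 - Q ^ 2) = 0) := by
  have hl := D.lev_all hq M
  set al : ℝ := 2 * Real.pi / q with hal
  set z := Complex.exp (((Real.pi / q : ℝ) : ℂ) * Complex.I) with hz
  set z' := Complex.exp (((-(Real.pi / q) : ℝ) : ℂ) * Complex.I) with hz'
  have hq0 : (q : ℂ) ≠ 0 := Nat.cast_ne_zero.2 (by omega)
  have hqr : (q : ℝ) ≠ 0 := Nat.cast_ne_zero.2 (by omega)
  obtain ⟨P, hP⟩ := (reg_wave D.scale hl D.small (1 / 2)).1.exists_lim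
  obtain ⟨Q1, hQ1⟩ := (reg_wave D.scale hl D.small (-1 / 2)).1.exists_lim
  have hPQ1 : ∀ j ≤ M, PowerSeries.coeff j (P * Q1 - 1) = 0 := by
    have h1 := ((hP.mul D.scale hQ1).add ((isLim_const D.scale M 1).smul (-1)))
    have h2 := h1.coeff_eq_zero D.scale (le_refl M) (D := 0) le_rfl (Eventually.of_forall fun m s => by
      simp only [wave, ← Complex.exp_add]
      push_cast; ring_nf; simp)
    intro j hj
    have := h2 j hj
    rwa [map_one, map_neg, map_one, mul_one, ← sub_eq_add_neg] at this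
  have hP0 : PowerSeries.constantCoeff P = 1 := by
    obtain ⟨C, hC, hs⟩ := (reg_wave D.scale hl D.small (1 / 2)).2
    have := (hP.add ((isLim_const D.scale M 1).smul (-1))).coeff_eq_zero D.scale (Nat.zero_le M) hC
      (by filter_upwards [hs] with m hm s; simpa [sub_eq_add_neg] using hm s) 0 le_rfl
    simp only [map_neg, map_one, mul_one, map_add, PowerSeries.coeff_zero_eq_constantCoeff_apply] at this
    rwa [add_neg_eq_zero] at this
  set Q := PowerSeries.invOfUnit P 1 with hQdef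
  have hPQ : P * Q = 1 := PowerSeries.mul_invOfUnit P 1 (by simpa using hP0)
  have hQ : IsLim U t M (wave (-1 / 2) phi) Q := by
    refine isLim_change (fun j hj => ?_) hQ1
    have e : Q1 - Q = Q * (P * Q1 - 1) := by linear_combination -Q1 * hPQ
    have : PowerSeries.coeff j (Q1 - Q) = 0 := by
      rw [e, PowerSeries.coeff_mul]
      refine Finset.sum_eq_zero fun i hi => ?_
      rw [hPQ1 i.2 (by have := HasAntidiagonal.mem_antidiagonal.1 hi; omega), mul_zero]
    rwa [map_sub, sub_eq_zero] at this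
  set x := -z with hx
  have hzq : z ^ q = -1 := by
    rw [hz, ← Complex.exp_nat_mul,
      show (q : ℂ) * (((Real.pi / q : ℝ) : ℂ) * Complex.I) = (Real.pi : ℂ) * Complex.I by
        push_cast; field_simp]
    exact Complex.exp_pi_mul_I
  have hxq : x ^ q = 1 := by rw [hx, hodd.neg_pow, hzq, neg_neg]
  have hzz : z * z' = 1 := by rw [hz, hz', ← Complex.exp_add]; push_cast; ring_nf; simp
  have hxx : x ^ (q - 1) = -z' := by
    have h1 : x ^ (q - 1) * x = 1 := by rw [← pow_succ, Nat.sub_add_cancel (by omega), hxq]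
    have h2 : (-z') * x = 1 := by rw [hx]; linear_combination hzz
    exact mul_right_cancel₀ (fun h => by rw [h, mul_zero] at h2; exact zero_ne_one h2) (h1.trans h2.symm)
  have hx1 : x ≠ 1 := by
    intro h
    have hre := congrArg Complex.im h
    rw [hx, Complex.neg_im, hz, Complex.exp_ofReal_mul_I_im, Complex.one_im, neg_eq_zero] at hre
    have hq' : (1 : ℝ) < q := by exact_mod_cast hq
    exact (Real.sin_pos_of_pos_of_lt_pi (by positivity) (div_lt_self Real.pi_pos hq')).ne' hre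
  have hrot : Complex.exp ((al : ℂ) * Complex.I) = x ^ 2 := by
    rw [hx, neg_sq, hz, ← Complex.exp_nat_mul, hal]; push_cast; ring_nf
  have hrot' : Complex.exp (((-al : ℝ) : ℂ) * Complex.I) = (-z') ^ 2 := by
    rw [neg_sq, hz', ← Complex.exp_nat_mul, hal]; push_cast; ring_nf
  have hPp := hP.shift al
  have hPm := hP.shift (-al)
  have hQp := hQ.shift al
  have hQm := hQ.shift (-al)
  rw [hrot] at hPp hQp
  rw [hrot'] at hPm hQm
  -- the limit of one harmonic
  have hbr : ∀ (n : ℕ) (w : ℂ) {f g : ℕ → ℝ → ℂ} {F G : PowerSeries ℂ}, IsLim U t M f F →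
      IsLim U t M g G → IsLim U t M (fun m s => bracket n w (f m s) (g m s))
        (PowerSeries.C (((n - 1 : ℕ) : ℂ) * w ^ (n + 1)) * G ^ (n + 1) * F ^ (n - 1) -
          PowerSeries.C (((n + 1 : ℕ) : ℂ) * w ^ (n - 1)) * G ^ (n - 1) * F ^ (n + 1)) := by
    intro n w f g F G hf hg
    have h1 := ((((hg.pow D.scale (n + 1)).mul D.scale (hf.pow D.scale (n - 1))).smul
      (((n - 1 : ℕ) : ℂ) * w ^ (n + 1))).add
      (((hg.pow D.scale (n - 1)).mul D.scale (hf.pow D.scale (n + 1))).smul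
        (-(((n + 1 : ℕ) : ℂ) * w ^ (n - 1)))))
    refine isLim_change (fun j _ => ?_) (isLim_congr (fun m s => by simp only [bracket]; ring) h1)
    rw [show (PowerSeries.C (-(((n + 1 : ℕ) : ℂ) * w ^ (n - 1)))) =
      -PowerSeries.C (((n + 1 : ℕ) : ℂ) * w ^ (n - 1)) from map_neg _ _]
    ring_nf
  let A : ℕ → PowerSeries ℂ := fun n => PowerSeries.C (a0 n) * PowerSeries.X ^ n *
    ((PowerSeries.C (((n - 1 : ℕ) : ℂ) * z ^ (n + 1)) * PowerSeries.rescale (x ^ 2) P ^ (n + 1) * P ^ (n - 1) -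
        PowerSeries.C (((n + 1 : ℕ) : ℂ) * z ^ (n - 1)) * PowerSeries.rescale (x ^ 2) P ^ (n - 1) * P ^ (n + 1)) -
      (PowerSeries.C (((n - 1 : ℕ) : ℂ) * z' ^ (n + 1)) * PowerSeries.rescale ((-z') ^ 2) P ^ (n + 1) * P ^ (n - 1) -
        PowerSeries.C (((n + 1 : ℕ) : ℂ) * z' ^ (n - 1)) * PowerSeries.rescale ((-z') ^ 2) P ^ (n - 1) * P ^ (n + 1)))
  have hterm := fun n (hn : n ∈ Icc 2 N) => by
    have hn2 : 2 ≤ n := (Finset.mem_Icc.1 hn).1
    have p1 := ((isLim_monomial D.scale M (n : ℤ) (hlim n)).mul D.scale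
      ((hbr n z hP hPp).add ((hbr n z' hP hPm).smul (-1))))
    have c1 : Tendsto (fun m => starRingEnd ℂ (a m n)) (U : Filter ℕ) (𝓝 (starRingEnd ℂ (a0 n))) :=
      (Complex.continuous_conj.tendsto _).comp (hlim n)
    have p2 := ((isLim_monomial D.scale M (-(n : ℤ)) c1).mul D.scale
      ((hbr n z' hQ hQp).add ((hbr n z hQ hQm).smul (-1))))
    rw [if_pos (Int.natCast_nonneg n), Int.natAbs_natCast] at p1
    rw [if_neg (by omega), zero_mul] at p2
    have p3 : IsLim U t M _ (A n) := isLim_change (fun j _ => by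
      simp only [A, map_neg, map_one, neg_one_mul, ← sub_eq_add_neg, add_zero]) (p1.add p2)
    exact p3
  have hlead := ((((hPm.mul D.scale hQ).smul z').add ((hQm.mul D.scale hP).smul z)).add
    ((((hPp.mul D.scale hQ).smul z).add ((hQp.mul D.scale hP).smul z')).smul (-1))).add
    (isLim_sum D.scale (Icc 2 N) hterm)
  have hzero := hlead.coeff_eq_zero D.scale (le_refl M) (D := 0) le_rfl (by
    filter_upwards [D.eqn] with m hm s
    have he := hm s
    rw [← hal] at he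
    rw [zero_mul, norm_le_zero_iff]
    simp only [← hz, ← hz', neg_one_mul, ← sub_eq_add_neg, Int.natAbs_natCast] at he ⊢
    linear_combination he)
  refine ⟨x, hxq, hx1, P, Q, hPQ, hP0, fun j hj => ?_, fun j hj hj0 hqj => ?_⟩
  · rw [hxx, ← hzero j hj]
    congr 1
    simp only [side, ratio, A]
    have hs : ∀ n ∈ Icc 2 N, A n =
        PowerSeries.C ((-1) ^ n * a0 n) * PowerSeries.X ^ n * P ^ (2 * n) *
          (((n + 1 : ℕ) : PowerSeries ℂ) * (PowerSeries.C x * Q * PowerSeries.rescale (x ^ 2) P) ^ (n - 1) -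
            ((n - 1 : ℕ) : PowerSeries ℂ) * (PowerSeries.C x * Q * PowerSeries.rescale (x ^ 2) P) ^ (n + 1)) -
        PowerSeries.C ((-1) ^ n * a0 n) * PowerSeries.X ^ n * P ^ (2 * n) *
          (((n + 1 : ℕ) : PowerSeries ℂ) * (PowerSeries.C (-z') * Q * PowerSeries.rescale ((-z') ^ 2) P) ^ (n - 1) -
            ((n - 1 : ℕ) : PowerSeries ℂ) * (PowerSeries.C (-z') * Q * PowerSeries.rescale ((-z') ^ 2) P) ^ (n + 1)) := by
      intro n hn
      have hn1 : 1 ≤ n := by have := (Finset.mem_Icc.1 hn).1; omega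
      simp only [A]
      rw [mul_sub, series_bracket hPQ z _ _ n hn1, series_bracket hPQ z' _ _ n hn1]
    rw [Finset.sum_congr rfl hs, Finset.sum_sub_distrib]
    simp only [hx, map_neg, map_one]
    ring
  · have h1 : ∀ i ∈ range q, IsLim U t M
        (fun m s => wave (1 / 2) phi m (s + (i : ℝ) * al) ^ 2 +
          (-1) * wave (-1 / 2) phi m (s + (i : ℝ) * al) ^ 2)
        (PowerSeries.rescale (Complex.exp ((((i : ℝ) * al : ℝ) : ℂ) * Complex.I))
          (P ^ 2 + PowerSeries.C (-1) * Q ^ 2)) := fun i _ =>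
      ((hP.pow D.scale 2).add ((hQ.pow D.scale 2).smul (-1))).shift _
    have h2 := (isLim_sum D.scale (range q) h1).coeff_eq_zero D.scale (le_refl M) (D := 0) le_rfl (by
      filter_upwards [D.gauge] with m hm s
      rw [zero_mul, norm_le_zero_iff]
      have he : ∀ y : ℝ, wave (1 / 2) phi m y ^ 2 + (-1) * wave (-1 / 2) phi m y ^ 2 =
          2 * Complex.I * ((Real.sin (phi m y) : ℝ) : ℂ) := by
        intro y
        have e1 := Complex.exp_mul_I (x := ((phi m y : ℝ) : ℂ))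
        have e2 := Complex.exp_mul_I (x := -((phi m y : ℝ) : ℂ))
        rw [Complex.cos_neg, Complex.sin_neg] at e2
        simp only [wave, ← Complex.exp_nat_mul, Complex.ofReal_sin]
        push_cast
        rw [show (2 : ℂ) * (1 / 2 * (phi m y : ℂ) * Complex.I) = (phi m y : ℂ) * Complex.I by ring,
          show (2 : ℂ) * (-1 / 2 * (phi m y : ℂ) * Complex.I) = -(phi m y : ℂ) * Complex.I by ring, e1, e2]
        ring
      simp only [he, ← Finset.mul_sum, ← Complex.ofReal_sum, hal, hm s, Complex.ofReal_zero, mul_zero]) j hj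
    rw [map_sum] at h2
    have hroot : ∀ i ∈ range q,
        PowerSeries.coeff j (PowerSeries.rescale (Complex.exp ((((i : ℝ) * al : ℝ) : ℂ) * Complex.I))
          (P ^ 2 + PowerSeries.C (-1) * Q ^ 2)) = PowerSeries.coeff j (P ^ 2 - Q ^ 2) := by
      intro i _
      obtain ⟨l, rfl⟩ := hqj
      rw [PowerSeries.coeff_rescale, ← Complex.exp_nat_mul,
        show ((q * l : ℕ) : ℂ) * ((((i : ℝ) * al : ℝ) : ℂ) * Complex.I) =
          ((l * i : ℕ) : ℂ) * (2 * (Real.pi : ℂ) * Complex.I) by rw [hal]; push_cast; field_simp,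
        Complex.exp_nat_mul, Complex.exp_two_pi_mul_I, one_pow, one_mul, map_neg, map_one, neg_one_mul,
        ← sub_eq_add_neg]
    rw [Finset.sum_congr rfl hroot, Finset.sum_const, Finset.card_range, nsmul_eq_mul, mul_eq_zero] at h2
    exact h2.resolve_left hq0

end Vale.Agent.P097.Trig
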