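import Mathlib

/-!
Valuation rings of large prime residue characteristic containing given elements.
-/

noncomputable section

namespace Vale.Agent.P097.Trig

theorem bound_field {F : Type*} [Field F] [Algebra ℚ F] [Module.Finite ℚ F] (t : Finset F) :
    ∃ B : ℕ, ∀ q : ℕ, q.Prime → B < q → ∀ y ∈ Subring.closure (t : Set F), (q : F) * y ≠ 1 := by
  classical
  haveI : CharZero F := charZero_of_injective_algebraMap (algebraMap ℚ F).injective
  have hmult : ∀ z : F, ∃ d : ℤ, d ≠ 0 ∧ IsIntegral ℤ (d • z) := fun z =>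
    ((IsFractionRing.isAlgebraic_iff ℤ ℚ F).2 (Algebra.IsAlgebraic.isAlgebraic z)).exists_integral_multiple
  choose d hd0 hd using hmult
  set M : ℤ := ∏ x ∈ t, d x with hM
  have hM0 : M ≠ 0 := Finset.prod_ne_zero_iff.2 fun x _ => hd0 _
  have cast : ∀ n : ℤ, IsIntegral ℤ (n : F) := fun n => by
    simpa using isIntegral_algebraMap (R := ℤ) (A := F) (x := n)
  have hgen : ∀ x ∈ t, IsIntegral ℤ ((M : F) * x) := by
    intro x hx
    rw [hM, ← Finset.mul_prod_erase _ _ hx, Int.cast_mul, mul_right_comm, ← zsmul_eq_mul]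
    exact (hd x).mul (cast _)
  refine ⟨M.natAbs, fun q hq hqB y hy hqy => ?_⟩
  have hint : ∀ y ∈ Subring.closure (t : Set F), ∃ k : ℕ, IsIntegral ℤ ((M : F) ^ k * y) := by
    intro y hy
    induction hy using Subring.closure_induction with
    | mem x hx => exact ⟨1, by rw [pow_one]; exact hgen x hx⟩
    | zero => exact ⟨0, by rw [mul_zero]; exact isIntegral_zero⟩
    | one => exact ⟨0, by rw [mul_one, pow_zero]; exact isIntegral_one⟩
    | add x y _ _ ihx ihy =>
      obtain ⟨k, hk⟩ := ihx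
      obtain ⟨l, hl⟩ := ihy
      refine ⟨k + l, ?_⟩
      rw [show (M : F) ^ (k + l) * (x + y) =
        (M : F) ^ l * ((M : F) ^ k * x) + (M : F) ^ k * ((M : F) ^ l * y) by ring]
      exact (((cast M).pow l).mul hk).add (((cast M).pow k).mul hl)
    | neg x _ ihx =>
      obtain ⟨k, hk⟩ := ihx
      exact ⟨k, by rw [mul_neg]; exact hk.neg⟩
    | mul x y _ _ ihx ihy =>
      obtain ⟨k, hk⟩ := ihx
      obtain ⟨l, hl⟩ := ihy
      refine ⟨k + l, ?_⟩
      rw [show (M : F) ^ (k + l) * (x * y) = ((M : F) ^ k * x) * ((M : F) ^ l * y) by ring]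
      exact hk.mul hl
  obtain ⟨k, hk⟩ := hint y hy
  have hq0 : (q : F) ≠ 0 := Nat.cast_ne_zero.2 hq.ne_zero
  have e : (M : F) ^ k * y = algebraMap ℚ F ((M : ℚ) ^ k / q) := by
    rw [map_div₀, map_pow, map_intCast, map_natCast, eq_div_iff hq0]
    linear_combination (M : F) ^ k * hqy
  rw [e, isIntegral_algebraMap_iff (algebraMap ℚ F).injective,
    IsIntegrallyClosed.isIntegral_iff] at hk
  obtain ⟨z, hz⟩ := hk
  have hdvd : (q : ℤ) ∣ M ^ k := by
    refine ⟨z, ?_⟩
    rw [eq_div_iff (Nat.cast_ne_zero.2 hq.ne_zero)] at hz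
    exact_mod_cast (show ((M : ℚ) ^ k) = q * z by rw [← hz]; simp; ring)
  have h1 : q ∣ M.natAbs :=
    Int.natCast_dvd.1 ((Nat.prime_iff_prime_int.1 hq).dvd_of_dvd_pow hdvd)
  have := Nat.le_of_dvd (Int.natAbs_pos.2 hM0) h1
  omega

theorem bound_finiteType {S : Type*} [CommRing S] [Algebra ℚ S] [Nontrivial S]
    [Algebra.FiniteType ℚ S] (t : Finset S) :
    ∃ B : ℕ, ∀ q : ℕ, q.Prime → B < q → ∀ y ∈ Subring.closure (t : Set S), (q : S) * y ≠ 1 := by
  classical
  obtain ⟨m, hm⟩ := Ideal.exists_maximal S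
  letI : Field (S ⧸ m) := Ideal.Quotient.field m
  haveI : Algebra.FiniteType ℚ (S ⧸ m) :=
    Algebra.FiniteType.of_surjective (Ideal.Quotient.mkₐ ℚ m) (Ideal.Quotient.mkₐ_surjective ℚ m)
  haveI : Module.Finite ℚ (S ⧸ m) := finite_of_finite_type_of_isJacobsonRing ℚ (S ⧸ m)
  obtain ⟨B, hB⟩ := bound_field (t.image (Ideal.Quotient.mk m))
  refine ⟨B, fun q hq hqB y hy h => hB q hq hqB (Ideal.Quotient.mk m y) ?_ ?_⟩
  · rw [Finset.coe_image, ← RingHom.map_closure]
    exact ⟨y, hy, rfl⟩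
  · rw [← map_natCast (Ideal.Quotient.mk m), ← map_mul, h, map_one]

theorem exists_prime_valuation {L : Type*} [Field L] [CharZero L] (s : Finset L) (B : ℕ) :
    ∃ q : ℕ, q.Prime ∧ B < q ∧ ∃ V : ValuationSubring L, (∀ x ∈ s, x ∈ V) ∧ (q : L) ∈ V.nonunits := by
  classical
  haveI : Algebra.FiniteType ℚ (Algebra.adjoin ℚ (s : Set L)) :=
    (Subalgebra.fg_iff_finiteType _).1 (Subalgebra.fg_adjoin_finset s)
  obtain ⟨B', hB'⟩ := bound_finiteType (S := Algebra.adjoin ℚ (s : Set L))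
    (s.attach.image fun x : {z // z ∈ s} =>
      (⟨(x : L), Algebra.subset_adjoin x.2⟩ : Algebra.adjoin ℚ (s : Set L)))
  obtain ⟨q, hqB, hq⟩ := Nat.exists_infinite_primes (max B B' + 1)
  refine ⟨q, hq, by omega, ?_⟩
  set R : Subring L := Subring.closure (s : Set L) with hR
  have hItop : (Ideal.span {(q : R)} : Ideal R) ≠ ⊤ := by
    rw [Ne, Ideal.span_singleton_eq_top]
    intro hu
    obtain ⟨⟨y, hyR⟩, hy⟩ := hu.exists_right_inv
    have hy' : (q : L) * y = 1 := by simpa using congrArg Subtype.val hy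
    have hmem : y ∈ (Subring.closure (Subtype.val ⁻¹' (s : Set L) :
        Set (Algebra.adjoin ℚ (s : Set L)))).map (Algebra.adjoin ℚ (s : Set L)).val.toRingHom := by
      rw [RingHom.map_closure]
      refine Subring.closure_mono (fun x hx => ?_) hyR
      exact ⟨⟨x, Algebra.subset_adjoin hx⟩, hx, rfl⟩
    obtain ⟨z, hz, hzy⟩ := hmem
    refine hB' q hq (by omega) z ?_ ?_
    · refine Subring.closure_mono (fun x hx => ?_) hz
      exact Finset.mem_image.2 ⟨⟨x.1, hx⟩, Finset.mem_attach _ _, rfl⟩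
    · refine Subtype.ext ?_
      have : (z : L) = y := hzy
      simpa [this] using hy'
  obtain ⟨V, hle, hnon⟩ := Ideal.image_subset_nonunits_valuationSubring _ hItop
  exact ⟨V, fun x hx => hle (Subring.subset_closure hx),
    hnon ⟨(q : R), Ideal.mem_span_singleton_self _, by simp⟩⟩

end Vale.Agent.P097.Trig
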