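import Vale.Agent.P097.Trig.Limit
import Vale.Agent.P097.Trig.Valuation

/-!
Nearly circular tables with trigonometric polynomial radius of curvature are not integrable near
the boundary.
-/

noncomputable section

namespace Vale.Agent.P097.Trig

open Finset Filter Topology Vale.Agent.P097.Sym

theorem abs_rhoOf_sub_one {N : ℕ} {h : ℕ → ℂ} {t : ℝ} (hb : ∀ n ∈ Icc 2 N, ‖h n‖ ≤ t) (u : ℝ) :
    |rhoOf N h u - 1| ≤ (∑ n ∈ Icc 2 N, 2 * (n : ℝ) ^ 2) * t := by
  rw [rhoOf, add_sub_cancel_left, Finset.sum_mul]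
  refine (Finset.abs_sum_le_sum_abs _ _).trans (Finset.sum_le_sum fun n hn => ?_)
  have hn1 : (1 : ℝ) ≤ (n : ℝ) ^ 2 := by
    have : (2 : ℝ) ≤ (n : ℝ) := by exact_mod_cast (Finset.mem_Icc.1 hn).1
    nlinarith
  have h1 : |(h n * Complex.exp (((n : ℂ) * (u : ℂ)) * Complex.I)).re| ≤ t := by
    refine (Complex.abs_re_le_norm _).trans ?_
    rw [norm_mul, ← Complex.ofReal_natCast, ← Complex.ofReal_mul, Complex.norm_exp_ofReal_mul_I, mul_one]
    exact hb n hn
  rw [abs_mul, abs_mul, abs_two, abs_of_nonpos (by linarith)]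
  exact mul_le_mul (by linarith) h1 (abs_nonneg _) (by positivity)

theorem rhoOf_congr {N : ℕ} {h h' : ℕ → ℂ} (e : ∀ n ∈ Icc 2 N, h n = h' n) : rhoOf N h = rhoOf N h' := by
  funext u
  simp only [rhoOf]
  rw [Finset.sum_congr rfl fun n hn => by rw [e n hn]]

/-- A sequence of integrable tables cannot approach the disc. -/
theorem no_sequence (N : ℕ) {eta : ℝ} (heta : 0 < eta) (h : ℕ → ℕ → ℂ)
    (hsmall : ∀ m, ∀ n ∈ Icc 2 N, ‖h m n‖ < 1 / ((m : ℝ) + 1))
    (hne : ∀ m, ∃ n ∈ Icc 2 N, h m n ≠ 0) (hT : ∀ m, IsTable (rhoOf N (h m)))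
    (hI : ∀ m, GraphIntegrable (rhoOf N (h m)) eta) : False := by
  have hnonempty : (Icc 2 N).Nonempty := ⟨(hne 0).choose, (hne 0).choose_spec.1⟩
  have hN : 2 ≤ N := by obtain ⟨n, hn⟩ := hnonempty; rw [Finset.mem_Icc] at hn; omega
  set t : ℕ → ℝ := fun m => (Icc 2 N).sup' hnonempty (fun n => ‖h m n‖ ^ ((n : ℝ)⁻¹)) with ht
  set a : ℕ → ℕ → ℂ := fun m n => if n ∈ Icc 2 N then h m n / ((t m ^ n : ℝ) : ℂ) else 0 with ha
  have hpow : ∀ m, ∀ n ∈ Icc 2 N, (‖h m n‖ ^ ((n : ℝ)⁻¹)) ^ n = ‖h m n‖ := fun m n hn =>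
    Real.rpow_inv_natCast_pow (norm_nonneg _) (by simp only [Finset.mem_Icc] at hn; omega)
  have htpos : ∀ m, 0 < t m := fun m => by
    obtain ⟨n, hn, hne'⟩ := hne m
    exact (Real.rpow_pos_of_pos (norm_pos_iff.2 hne') _).trans_le
      (Finset.le_sup' (fun n => ‖h m n‖ ^ ((n : ℝ)⁻¹)) hn)
  have hle : ∀ m, ∀ n ∈ Icc 2 N, ‖h m n‖ ≤ t m ^ n := fun m n hn => by
    rw [← hpow m n hn]
    exact pow_le_pow_left₀ (Real.rpow_nonneg (norm_nonneg _) _)
      (Finset.le_sup' (fun n => ‖h m n‖ ^ ((n : ℝ)⁻¹)) hn) n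
  have hatt : ∀ m, ∃ n ∈ Icc 2 N, ‖a m n‖ = 1 := fun m => by
    obtain ⟨n, hn, e⟩ := Finset.exists_mem_eq_sup' hnonempty (fun n => ‖h m n‖ ^ ((n : ℝ)⁻¹))
    refine ⟨n, hn, ?_⟩
    simp only [ha, if_pos hn, norm_div, Complex.norm_real, Real.norm_eq_abs,
      abs_of_pos (pow_pos (htpos m) _)]
    rw [show t m = ‖h m n‖ ^ ((n : ℝ)⁻¹) from e, hpow m n hn]
    refine div_self (fun h0 => ?_)
    have := htpos m
    rw [show t m = ‖h m n‖ ^ ((n : ℝ)⁻¹) from e, h0,
      Real.zero_rpow (inv_ne_zero (Nat.cast_ne_zero.2 (by simp only [Finset.mem_Icc] at hn; omega)))] at this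
    exact lt_irrefl _ this
  have ha1 : ∀ m n, ‖a m n‖ ≤ 1 := fun m n => by
    simp only [ha]
    split_ifs with hn
    · rw [norm_div, Complex.norm_real, Real.norm_eq_abs, abs_of_pos (pow_pos (htpos m) _)]
      exact div_le_one_of_le₀ (hle m n hn) (pow_nonneg (htpos m).le _)
    · simp
  have hh : ∀ m, ∀ n ∈ Icc 2 N, h m n = a m n * ((t m ^ n : ℝ) : ℂ) := fun m n hn => by
    simp only [ha, if_pos hn]
    rw [div_mul_cancel₀]
    exact Complex.ofReal_ne_zero.2 (pow_ne_zero _ (htpos m).ne')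
  -- the limit along an ultrafilter
  set U : Ultrafilter ℕ := Ultrafilter.of atTop with hU
  have hUle : (U : Filter ℕ) ≤ atTop := Ultrafilter.of_le _
  have hbnd : ∀ m, t m ≤ (1 / ((m : ℝ) + 1)) ^ ((N : ℝ)⁻¹) := fun m => by
    refine Finset.sup'_le _ _ fun n hn => ?_
    have hn' := Finset.mem_Icc.1 hn
    have hn0 : (0 : ℝ) < n := by exact_mod_cast (by omega : 0 < n)
    refine (Real.rpow_le_rpow (norm_nonneg _) (hsmall m n hn).le (by positivity)).trans ?_
    refine Real.rpow_le_rpow_of_exponent_ge (by positivity) ?_ ?_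
    · rw [div_le_one (by positivity)]; linarith [Nat.cast_nonneg (α := ℝ) m]
    · exact inv_anti₀ hn0 (by exact_mod_cast hn'.2)
  have hle1 : ∀ m, t m ≤ 1 := fun m => (hbnd m).trans (Real.rpow_le_one (by positivity)
    (by rw [div_le_one (by positivity)]; linarith [Nat.cast_nonneg (α := ℝ) m]) (by positivity))
  have hscale : Scale U t := by
    refine ⟨Eventually.of_forall fun m => ⟨htpos m, hle1 m⟩, Tendsto.mono_left ?_ hUle⟩
    refine squeeze_zero (fun m => (htpos m).le) hbnd ?_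
    have h0 := (tendsto_one_div_add_atTop_nhds_zero_nat (𝕜 := ℝ)).rpow_const
      (p := (N : ℝ)⁻¹) (Or.inr (by positivity))
    rwa [Real.zero_rpow (inv_ne_zero (Nat.cast_ne_zero.2 (by omega : N ≠ 0)))] at h0
  have hlimex : ∀ n, ∃ z, Tendsto (fun m => a m n) (U : Filter ℕ) (𝓝 z) := fun n => by
    have hle' : ↑(U.map fun m => a m n) ≤ 𝓟 (Metric.closedBall (0 : ℂ) 1) := by
      rw [le_principal_iff, Ultrafilter.mem_coe, Ultrafilter.mem_map]
      exact Filter.Eventually.of_forall (f := (U : Filter ℕ)) fun m => by simpa using ha1 m n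
    obtain ⟨z, -, hz⟩ := (isCompact_closedBall (0 : ℂ) 1).ultrafilter_le_nhds _ hle'
    exact ⟨z, hz⟩
  choose a0 hlim using hlimex
  have hex : ∃ n, n ∈ Icc 2 N ∧ a0 n ≠ 0 := by
    by_contra hcon
    have : ∀ᶠ m in (U : Filter ℕ), ∀ n ∈ Icc 2 N, ‖a m n‖ < 1 := by
      rw [eventually_all_finset]
      intro n hn
      have h0 : a0 n = 0 := by by_contra h0; exact hcon ⟨n, hn, h0⟩
      have := (hlim n).norm
      rw [h0, norm_zero] at this
      exact this.eventually (eventually_lt_nhds one_pos)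
    obtain ⟨m, hm⟩ := this.exists
    obtain ⟨n, hn, e⟩ := hatt m
    exact (hm n hn).ne e
  set n0 := Nat.find hex with hn0def
  obtain ⟨hn0, hne0⟩ := Nat.find_spec hex
  set b : ℕ → ℂ := fun n => (-1) ^ n * a0 n with hb
  have hbout : ∀ n, n ∉ Icc 2 N → b n = 0 := fun n hn => by
    have : a0 n = 0 := tendsto_nhds_unique (hlim n) (by simp only [ha, if_neg hn]; exact tendsto_const_nhds)
    simp [hb, this]
  obtain ⟨q, hq, hqB, V, hV, hqV⟩ := exists_prime_valuation
    ((Icc 2 N).image b ∪ {(b n0)⁻¹}) (max (N + 1) (⌈Real.pi / eta⌉₊ + 3))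
  haveI : Fact q.Prime := ⟨hq⟩
  have hqN : N + 1 < q := lt_of_le_of_lt (le_max_left _ _) hqB
  have hq3 : 3 ≤ q := by omega
  have hqeta : Real.pi / q < eta := by
    have h1 : Real.pi / eta < q := by
      refine (Nat.le_ceil _).trans_lt ?_
      exact_mod_cast (by have := (le_max_right (N + 1) (⌈Real.pi / eta⌉₊ + 3)).trans_lt hqB; omega :
        ⌈Real.pi / eta⌉₊ < q)
    rw [div_lt_iff₀ heta] at h1
    rw [div_lt_iff₀ (by exact_mod_cast hq.pos)]
    linarith
  set K : ℝ := ∑ n ∈ Icc 2 N, 2 * (n : ℝ) ^ 2 with hK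
  have hKb : ∀ m u, |rhoOf N (h m) u - 1| ≤ K * t m := fun m u =>
    abs_rhoOf_sub_one (fun n hn => (hle m n hn).trans (pow_le_of_le_one (htpos m).le (hle1 m)
      (by simp only [Finset.mem_Icc] at hn; omega))) u
  set L : ℝ := 2 * q * (Real.pi * (4 * Real.pi * q * K) / (2 * Real.sin (Real.pi / q / 2))) with hL
  have hsin : 0 < Real.sin (Real.pi / q / 2) := by
    have : (1 : ℝ) < q := by exact_mod_cast hq.one_lt
    refine Real.sin_pos_of_pos_of_lt_pi (by positivity) ?_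
    have := div_lt_self Real.pi_pos this
    linarith [Real.pi_pos]
  have hK0 : 0 ≤ K := Finset.sum_nonneg fun n _ => by positivity
  have hL0 : 0 ≤ L := by positivity
  have hBL : ∀ m, 2 * (q : ℝ) * (Real.pi * (4 * Real.pi * q * (K * t m)) / (2 * Real.sin (Real.pi / q / 2)))
      = L * t m := fun m => by rw [hL]; ring
  set Good : ℕ → (ℝ → ℝ) → Prop := fun m phi => (∀ s, phi (s + 2 * Real.pi) = phi s) ∧
    (∀ s, |phi s| ≤ 2 * (L * t m)) ∧
    (∀ s, ∑ i ∈ range q, Real.sin (phi (s + i * (2 * Real.pi / q))) = 0) ∧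
    ∀ s, height (rhoOf N (h m)) (s + phi s) (s - Real.pi / q + (phi (s - 2 * Real.pi / q) + phi s) / 2)
        (s + Real.pi / q + (phi s + phi (s + 2 * Real.pi / q)) / 2) = 0 with hGood
  set phi : ℕ → ℝ → ℝ := fun m => Classical.epsilon (Good m) with hphi
  have hgood : ∀ᶠ m in (U : Filter ℕ), Good m (phi m) := by
    have : Tendsto (fun m => L * t m) (U : Filter ℕ) (𝓝 0) := by simpa using hscale.2.const_mul L
    filter_upwards [this.eventually (eventually_le_nhds (show (0:ℝ) < 1 / 4 by norm_num))] with m hm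
    obtain ⟨f, f0, f1, f2, f3⟩ := exists_family (hT m) (hI m) hq3 hqeta (hKb m) (by rw [hBL m]; exact hm)
    exact Classical.epsilon_spec (p := Good m) ⟨f, f0, fun s => (f1 s).trans (by rw [hBL m]), f2, f3⟩
  have D : Data U t N q phi a := by
    refine ⟨hscale, Eventually.of_forall ha1, ⟨2 * L, by positivity, ?_⟩, ?_, ?_, ?_⟩
    · filter_upwards [hgood] with m hm s
      rw [Complex.norm_real, Real.norm_eq_abs, mul_assoc]
      exact hm.2.1 s
    · filter_upwards [hgood] with m hm using hm.1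
    · filter_upwards [hgood] with m hm using hm.2.2.1
    · filter_upwards [hgood] with m hm s
      have := equation_complex (hT m) (p := phi m s) (pl := phi m (s - 2 * Real.pi / q))
        (pr := phi m (s + 2 * Real.pi / q)) (hm.2.2.2 s)
      simp only [wave, ← sub_eq_add_neg, show ∀ x : ℝ, (1 / 2 : ℝ) * x = x / 2 from fun x => by ring,
        show ∀ x : ℝ, (-1 / 2 : ℝ) * x = -x / 2 from fun x => by ring]
      convert this using 2
      refine Finset.sum_congr rfl fun n hn => ?_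
      rw [hh m n hn]
      simp only [map_mul, Complex.conj_ofReal, Int.natAbs_natCast, Int.natAbs_neg, mode,
        Int.cast_natCast]
  have hodd : Odd q := hq.odd_of_ne_two (by omega)
  obtain ⟨x, hx, hx1, P, Q, hPQ, hP0, hE, hG⟩ := D.formal hq.two_le hodd hlim (q * n0)
  have hb0 : b n0 ≠ 0 := mul_ne_zero (pow_ne_zero _ (by norm_num)) hne0
  refine no_formal_solution V hqV hqN hx hx1 b (fun n => ?_) hn0 hb0 ?_ (fun n h2 hlt => ?_) P Q hPQ hP0 hE hG
  · by_cases hn : n ∈ Icc 2 N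
    · exact hV _ (Finset.mem_union_left _ (Finset.mem_image_of_mem b hn))
    · rw [hbout n hn]; exact V.zero_mem
  · exact hV _ (Finset.mem_union_right _ (Finset.mem_singleton_self _))
  · have hn : n ∈ Icc 2 N := Finset.mem_Icc.2 ⟨h2, by have := (Finset.mem_Icc.1 hn0).2; omega⟩
    have : a0 n = 0 := by
      by_contra h0; exact Nat.find_min hex hlt ⟨hn, h0⟩
    simp [hb, this]

/-- Nearly circular tables with trigonometric polynomial radius of curvature. -/
theorem near_disc (N : ℕ) {eta : ℝ} (heta : 0 < eta) :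
    ∃ e : ℝ, 0 < e ∧ ∀ h : ℕ → ℂ, (∀ n ∈ Icc 2 N, ‖h n‖ < e) → IsTable (rhoOf N h) →
      GraphIntegrable (rhoOf N h) eta → ∀ n ∈ Icc 2 N, h n = 0 := by
  by_contra hcon
  push Not at hcon
  choose h h1 h2 h3 n hn hne using fun m : ℕ => hcon (1 / ((m : ℝ) + 1)) (by positivity)
  exact no_sequence N heta h h1 (fun m => ⟨n m, hn m, hne m⟩) h2 h3

theorem graphIntegrable_div {rho : ℝ → ℝ} {c eta : ℝ} (hc : 0 < c) (h : GraphIntegrable rho eta) :
    GraphIntegrable (fun x => rho x / c) eta := by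
  obtain ⟨G, h1, h2, h3, h4, h5⟩ := h
  refine ⟨G, h1, h2, h3, h4, fun t ht x y hy => h5 t ht x y ?_⟩
  obtain ⟨a, b, l, hl, e⟩ := hy
  refine ⟨a, b, c * l, mul_pos hc hl, ?_⟩
  have hcur : ∀ z, curve (fun x => rho x / c) z = curve rho z / (c : ℂ) := by
    intro z
    simp only [curve, ← intervalIntegral.integral_div]
    refine intervalIntegral.integral_congr fun u _ => ?_
    push_cast; ring
  rw [hcur, hcur, ← sub_div, div_eq_iff (Complex.ofReal_ne_zero.2 hc.ne')] at e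
  rw [e]; push_cast; ring

theorem isTable_div {rho : ℝ → ℝ} {c : ℝ} (hc : 0 < c) (h : IsTable rho) :
    IsTable (fun x => rho x / c) := by
  obtain ⟨h1, h2, h3, h4⟩ := h
  refine ⟨h1.div_const c, fun x => div_pos (h2 x) hc, fun x => by simp only [h3 x], ?_⟩
  rw [intervalIntegral.integral_congr (g := fun u => ((rho u : ℂ) * Complex.exp ((u : ℂ) * Complex.I)) / (c : ℂ))
    (fun u _ => by push_cast; ring), intervalIntegral.integral_div, h4, zero_div]

/-- The result in real coefficients. -/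
theorem near_disc_real (N : ℕ) {eta : ℝ} (heta : 0 < eta) :
    ∃ e : ℝ, 0 < e ∧ ∀ (rho : ℝ → ℝ) (r0 : ℝ) (a b : ℕ → ℝ), IsTable rho → 0 < r0 →
      (∀ x, rho x = r0 * (1 + ∑ n ∈ Icc 2 N, (a n * Real.cos (n * x) + b n * Real.sin (n * x)))) →
      (∀ n ∈ Icc 2 N, |a n| < e ∧ |b n| < e) → GraphIntegrable rho eta → ∀ x y, rho x = rho y := by
  obtain ⟨e, he, main⟩ := near_disc N heta
  refine ⟨e, he, fun rho r0 a b hT hr hrho hab hI x y => ?_⟩
  set h : ℕ → ℂ := fun n => ((a n : ℂ) - (b n : ℂ) * Complex.I) / ((2 * (1 - (n : ℝ) ^ 2) : ℝ) : ℂ) with hh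
  have hfac : ∀ n ∈ Icc 2 N, 2 * (1 - (n : ℝ) ^ 2) ≤ -6 := fun n hn => by
    have : (2 : ℝ) ≤ (n : ℝ) := by exact_mod_cast (Finset.mem_Icc.1 hn).1
    nlinarith
  have hre : rhoOf N h = fun u => rho u / r0 := by
    funext u
    rw [hrho u, mul_div_cancel_left₀ _ hr.ne', rhoOf]
    refine congrArg _ (Finset.sum_congr rfl fun n hn => ?_)
    have hf := hfac n hn
    have hne : (2 * (1 - (n : ℝ) ^ 2)) ≠ 0 := by linarith
    rw [← Complex.re_ofReal_mul, ← mul_assoc]
    simp only [hh]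
    rw [mul_div_cancel₀ _ (Complex.ofReal_ne_zero.2 hne),
      show (((n : ℂ) * (u : ℂ)) * Complex.I) = (((n : ℝ) * u : ℝ) : ℂ) * Complex.I by push_cast; ring]
    simp [Complex.mul_re, Complex.exp_re, Complex.exp_im, Complex.cos_ofReal_re, Complex.sin_ofReal_re]
  have hz := main h (fun n hn => ?_) (hre ▸ isTable_div hr hT) (hre ▸ graphIntegrable_div hr hI)
  · have : ∀ u, rhoOf N h u = 1 := fun u => by
      rw [rhoOf, Finset.sum_eq_zero (fun n hn => by rw [hz n hn]; simp), add_zero]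
    have e1 := this x
    have e2 := this y
    rw [hre] at e1 e2
    field_simp at e1 e2
    linarith
  · have hf := hfac n hn
    simp only [hh, norm_div, Complex.norm_real, Real.norm_eq_abs, abs_of_nonpos (by linarith :
      2 * (1 - (n : ℝ) ^ 2) ≤ 0)]
    rw [div_lt_iff₀ (by linarith)]
    refine (norm_sub_le _ _).trans_lt ?_
    rw [norm_mul, Complex.norm_I, mul_one, Complex.norm_real, Complex.norm_real, Real.norm_eq_abs,
      Real.norm_eq_abs]
    obtain ⟨h1, h2⟩ := hab n hn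
    nlinarith

end Vale.Agent.P097.Trig
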