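import Vale.Agent.P097.Sym.Disc

/-!
The family of periodic orbits of winding one of a nearly circular table.
-/

noncomputable section

namespace Vale.Agent.P097.Trig

open Real Set Filter Topology Vale.Agent.P097.Sym

variable {rho : ℝ → ℝ} {eta : ℝ} {G : ℝ → ℝ → ℝ}

theorem continuous_periodic_leaf (L : Leaves rho eta G) {m : ℕ} {T : ℝ → ℝ}
    (hT : ∀ y, T y ∈ Ioo (0:ℝ) 1) (eT : ∀ y, (leafMap rho G (T y))^[m + 1] y = y + 2 * π) :
    Continuous T := by
  rw [continuous_iff_continuousAt]
  intro y
  rw [ContinuousAt, tendsto_order]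
  constructor
  · intro u hu
    by_cases hu0 : u ≤ 0
    · exact Eventually.of_forall fun z => hu0.trans_lt (hT z).1
    have hum : u ∈ Ioo (0:ℝ) 1 := ⟨not_le.1 hu0, hu.trans (hT y).2⟩
    have hlt := L.iter_lt hum (hT y) hu y m
    rw [eT y] at hlt
    have hopen : IsOpen {z | (leafMap rho G u)^[m + 1] z < z + 2 * π} :=
      isOpen_lt ((L.continuous_map hum).iterate _) (continuous_id.add continuous_const)
    filter_upwards [hopen.mem_nhds hlt] with z hz0
    have hz : (leafMap rho G u)^[m + 1] z < z + 2 * π := hz0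
    by_contra hc
    rcases (not_lt.1 hc).lt_or_eq with h | h
    · linarith [L.iter_lt (hT z) hum h z m, eT z]
    · have := eT z; rw [h] at this; linarith
  · intro u hu
    by_cases hu1 : 1 ≤ u
    · exact Eventually.of_forall fun z => (hT z).2.trans_le hu1
    have hum : u ∈ Ioo (0:ℝ) 1 := ⟨(hT y).1.trans hu, not_le.1 hu1⟩
    have hlt := L.iter_lt (hT y) hum hu y m
    rw [eT y] at hlt
    have hopen : IsOpen {z | z + 2 * π < (leafMap rho G u)^[m + 1] z} :=
      isOpen_lt (continuous_id.add continuous_const) ((L.continuous_map hum).iterate _)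
    filter_upwards [hopen.mem_nhds hlt] with z hz0
    have hz : z + 2 * π < (leafMap rho G u)^[m + 1] z := hz0
    by_contra hc
    rcases (not_lt.1 hc).lt_or_eq with h | h
    · linarith [L.iter_lt hum (hT z) h z m, eT z]
    · have := eT z; rw [← h] at this; linarith

theorem abs_height_sub (h : IsTable rho) {e th x y : ℝ} (hxy : x ≤ y) (he : ∀ u, |rho u - 1| ≤ e) :
    |height rho th x y - (Real.cos (x - th) - Real.cos (y - th))| ≤ e * (y - x) := by
  have hd : ∀ u, HasDerivAt (fun u => height rho th x u - (Real.cos (x - th) - Real.cos (u - th)))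
      ((rho u - 1) * Real.sin (u - th)) u := by
    intro u
    have h2 : HasDerivAt (fun u => Real.cos (u - th)) (-Real.sin (u - th)) u :=
      (Real.hasDerivAt_cos (u - th)).comp_sub_const u th
    refine ((hasDerivAt_height h.1 th x u).sub (h2.const_sub _)).congr_deriv ?_
    ring
  have := (convex_Icc x y).norm_image_sub_le_of_norm_hasDerivWithin_le
    (fun u _ => (hd u).hasDerivWithinAt) (C := e) (fun u _ => by
      rw [Real.norm_eq_abs, abs_mul]
      exact (mul_le_of_le_one_right (abs_nonneg _) (Real.abs_sin_le_one _)).trans (he u))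
    (left_mem_Icc.2 hxy) (right_mem_Icc.2 hxy)
  simpa [height_self, Real.norm_eq_abs, abs_of_nonneg (sub_nonneg.2 hxy)] using this

/-- Two angles in `(0, pi)` with close cosines are close, if one of them is away from the ends. -/
theorem abs_sub_le_of_cos {b d K : ℝ} (hb : 0 < b) (hb' : b ≤ π / 2) (hd : d ∈ Ioo 0 π)
    (h : |Real.cos d - Real.cos b| ≤ K) : |d - b| ≤ π * K / (2 * Real.sin (b / 2)) := by
  have hp := Real.pi_pos
  have hs : 0 < Real.sin (b / 2) := Real.sin_pos_of_pos_of_lt_pi (by linarith) (by linarith)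
  rw [Real.cos_sub_cos, abs_mul, abs_mul] at h
  have h1 : Real.sin (b / 2) ≤ |Real.sin ((d + b) / 2)| := by
    refine le_trans ?_ (le_abs_self _)
    rcases le_total ((d + b) / 2) (π / 2) with h1 | h1
    · exact Real.sin_le_sin_of_le_of_le_pi_div_two (by linarith) h1 (by linarith [hd.1])
    · rw [← Real.sin_pi_sub ((d + b) / 2)]
      exact Real.sin_le_sin_of_le_of_le_pi_div_two (by linarith) (by linarith [hd.2])
        (by linarith [hd.2])
  have h2 : 2 / π * |(d - b) / 2| ≤ |Real.sin ((d - b) / 2)| :=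
    Real.mul_abs_le_abs_sin (by rw [abs_le]; constructor <;> linarith [hd.1, hd.2])
  rw [le_div_iff₀ (by positivity)]
  have h3 : 2 * Real.sin (b / 2) * (2 / π * |(d - b) / 2|) ≤ K := by
    refine le_trans ?_ h
    rw [abs_neg, abs_two]
    exact mul_le_mul (mul_le_mul_of_nonneg_left h1 (by norm_num)) h2 (by positivity) (by positivity)
  rw [abs_div, abs_two] at h3
  have h4 : π * (2 * Real.sin (b / 2) * (2 / π * (|d - b| / 2))) ≤ π * K :=
    mul_le_mul_of_nonneg_left h3 hp.le
  field_simp at h4 ⊢
  linarith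

/-- The angle of the line number `i` of the orbit through the point `a` of the leaf `t`. -/
def line (rho : ℝ → ℝ) (G : ℝ → ℝ → ℝ) (t a : ℝ) (i : ℕ) : ℝ :=
  (leafMap rho G t)^[i] a + G t ((leafMap rho G t)^[i] a)

theorem line_equation (L : Leaves rho eta G) {t : ℝ} (ht : t ∈ Ioo (0:ℝ) 1) (a : ℝ) (i : ℕ) :
    height rho (line rho G t a (i + 1)) ((line rho G t a i + line rho G t a (i + 1)) / 2)
      ((line rho G t a (i + 1) + line rho G t a (i + 2)) / 2) = 0 := by
  have hA : ∀ j, (line rho G t a j + line rho G t a (j + 1)) / 2 = (leafMap rho G t)^[j + 1] a := by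
    intro j
    simp only [line, Function.iterate_succ_apply', L.angle_next ht]
    ring
  have := L.step ht ((leafMap rho G t)^[i + 1] a)
  rw [← Function.iterate_succ_apply' (leafMap rho G t)] at this
  have h0 := ((step_iff L.table (L.range t ht _).1).1 this).2.2
  rw [hA i, hA (i + 1)]
  exact h0

theorem line_period (L : Leaves rho eta G) {t : ℝ} (ht : t ∈ Ioo (0:ℝ) 1) {a : ℝ} {q : ℕ}
    (h : (leafMap rho G t)^[q] a = a + 2 * π) (i : ℕ) :
    line rho G t a (i + q) = line rho G t a i + 2 * π := by
  simp only [line, Function.iterate_add_apply, h, L.iter_add ht, (L.range t ht _).2]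
  ring

theorem line_dev (L : Leaves rho eta G) {t : ℝ} (ht : t ∈ Ioo (0:ℝ) 1) {a : ℝ} {q : ℕ} (hq : 3 ≤ q)
    (h : (leafMap rho G t)^[q] a = a + 2 * π) {e : ℝ} (he : ∀ u, |rho u - 1| ≤ e) (i : ℕ)
    (hi : i < q) :
    |line rho G t a i - line rho G t a 0 - i * (2 * π / q)| ≤
      2 * q * (π * (4 * π * q * e) / (2 * Real.sin (π / q / 2))) := by
  set f := leafMap rho G t with hf
  set d : ℕ → ℝ := fun j => G t (f^[j] a) with hd
  have hp := Real.pi_pos
  have he0 : 0 ≤ e := (abs_nonneg _).trans (he 0)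
  have hdr : ∀ j, d j ∈ Ioo 0 π := fun j => (L.range t ht _).1
  have hnext : ∀ j, f^[j + 1] a = f^[j] a + d j + d (j + 1) := by
    intro j
    have := L.angle_next ht (f^[j] a)
    rw [← hf, ← Function.iterate_succ_apply' f] at this
    simp only [hd]; linarith
  have hcos : ∀ j, |Real.cos (d j) - Real.cos (d (j + 1))| ≤ 2 * π * e := by
    intro j
    have hs := L.step ht (f^[j] a)
    rw [← hf, ← Function.iterate_succ_apply' f] at hs
    obtain ⟨h1, h2, h0⟩ := (step_iff L.table (hdr j)).1 hs
    have := abs_height_sub L.table h1.le he (th := f^[j] a + d j)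
    rw [h0, zero_sub, abs_neg, show f^[j] a - (f^[j] a + d j) = -d j by ring, Real.cos_neg,
      hnext j, show f^[j] a + d j + d (j + 1) - (f^[j] a + d j) = d (j + 1) by ring] at this
    refine this.trans ?_
    rw [mul_comm e]
    refine mul_le_mul_of_nonneg_right ?_ he0
    linarith [hnext j]
  have hc0 : ∀ j, j ≤ q → |Real.cos (d j) - Real.cos (d 0)| ≤ j * (2 * π * e) := by
    intro j
    induction j with
    | zero => simp
    | succ n ih =>
      intro hn
      have h1 := abs_le.1 (ih (by omega))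
      have h2 := abs_le.1 (hcos n)
      rw [abs_le]; push_cast; constructor <;> linarith
  have hsum : ∀ j, f^[j] a = a + 2 * (∑ l ∈ Finset.range j, d l) - d 0 + d j := by
    intro j
    induction j with
    | zero => simp
    | succ n ih => rw [hnext n, ih, Finset.sum_range_succ]; ring
  have hdq : d q = d 0 := by
    simp only [hd, h, Function.iterate_zero, id, (L.range t ht a).2]
  have hpi : ∑ l ∈ Finset.range q, d l = π := by
    have := hsum q; rw [h, hdq] at this; linarith
  set b := π / q with hb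
  have hqb : (q : ℝ) * b = π := by rw [hb]; field_simp
  have hb0 : 0 < b := by rw [hb]; positivity
  have hb2 : b ≤ π / 2 := by
    rw [hb]; exact div_le_div_of_nonneg_left hp.le two_pos (by exact_mod_cast (by omega : 2 ≤ q))
  have hne : (Finset.range q).Nonempty := ⟨0, by simp; omega⟩
  obtain ⟨jl, hjl, hjl'⟩ := Finset.exists_le_of_sum_le (f := d) (g := fun _ => b) hne (by
    rw [Finset.sum_const, Finset.card_range, nsmul_eq_mul, hqb, hpi])
  obtain ⟨jh, hjh, hjh'⟩ := Finset.exists_le_of_sum_le (f := fun _ => b) (g := d) hne (by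
    rw [Finset.sum_const, Finset.card_range, nsmul_eq_mul, hqb, hpi])
  simp only [Finset.mem_range] at hjl hjh
  have hclose : ∀ j, j ≤ q → |d j - b| ≤ π * (4 * π * q * e) / (2 * Real.sin (b / 2)) := by
    intro j hj
    refine abs_sub_le_of_cos hb0 hb2 (hdr j) ?_
    have m : ∀ l, l ≤ q → |Real.cos (d l) - Real.cos (d 0)| ≤ q * (2 * π * e) := fun l hl =>
      (hc0 l hl).trans (mul_le_mul_of_nonneg_right (Nat.cast_le.2 hl) (by positivity))
    have m1 := abs_le.1 (m j hj)
    have m2 := abs_le.1 (m jl hjl.le)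
    have m3 := abs_le.1 (m jh hjh.le)
    have c1 : Real.cos b ≤ Real.cos (d jl) :=
      Real.cos_le_cos_of_nonneg_of_le_pi (hdr jl).1.le (by linarith) hjl'
    have c2 : Real.cos (d jh) ≤ Real.cos b :=
      Real.cos_le_cos_of_nonneg_of_le_pi hb0.le (hdr jh).2.le hjh'
    rw [abs_le]; constructor <;> linarith
  set K := π * (4 * π * q * e) / (2 * Real.sin (b / 2)) with hK
  have hK0 : 0 ≤ K := (abs_nonneg _).trans (hclose 0 (by omega))
  have hline : ∀ j, j ≤ q → |line rho G t a j - line rho G t a 0 - j * (2 * π / q)| ≤ 2 * j * K := by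
    intro j
    induction j with
    | zero => simp
    | succ n ih =>
      intro hn
      have h1 := abs_le.1 (ih (by omega))
      have h2 := abs_le.1 (hclose (n + 1) hn)
      have e1 : line rho G t a (n + 1) = line rho G t a n + 2 * d (n + 1) := by
        have := hnext n
        simp only [line, ← hf, hd] at this ⊢
        linarith
      have e2 : (2 * π / q : ℝ) = 2 * b := by rw [hb]; ring
      rw [e2] at h1 ⊢
      rw [e1, abs_le]
      push_cast
      constructor <;> linarith
  exact (hline i hi.le).trans (by nlinarith [show (i : ℝ) ≤ q from Nat.cast_le.2 hi.le])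

/-- The periodic family, parametrised so that the shift by `2 pi / q` is the billiard map. -/
theorem exists_family (h : IsTable rho) {eta : ℝ} (hint : GraphIntegrable rho eta) {q : ℕ} (hq : 3 ≤ q)
    (hk : π / q < eta) {e : ℝ} (he : ∀ u, |rho u - 1| ≤ e)
    (hB : 2 * q * (π * (4 * π * q * e) / (2 * Real.sin (π / q / 2))) ≤ 1 / 4) :
    ∃ phi : ℝ → ℝ, (∀ s, phi (s + 2 * π) = phi s) ∧ (∀ s, |phi s| ≤ 2 * (2 * q * (π * (4 * π * q * e) / (2 * Real.sin (π / q / 2))))) ∧
      (∀ s, ∑ i ∈ Finset.range q, Real.sin (phi (s + i * (2 * π / q))) = 0) ∧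
      ∀ s, height rho (s + phi s) (s - π / q + (phi (s - 2 * π / q) + phi s) / 2)
        (s + π / q + (phi s + phi (s + 2 * π / q)) / 2) = 0 := by
  obtain ⟨G, h1, h2, h3, h4, h5⟩ := hint
  have L : Leaves rho eta G := ⟨h, h1, h2, h3, h4, h5⟩
  obtain ⟨m, rfl⟩ : ∃ m, q = m + 1 := ⟨q - 1, by omega⟩
  choose T hT eT using fun y => L.exists_leaf hk y
  set B := 2 * ((m + 1 : ℕ) : ℝ) *
    (π * (4 * π * ((m + 1 : ℕ) : ℝ) * e) / (2 * Real.sin (π / ((m + 1 : ℕ) : ℝ) / 2))) with hBdef
  have hTc := continuous_periodic_leaf L hT eT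
  set al := 2 * π / ((m + 1 : ℕ) : ℝ) with hal
  have hal0 : 0 < al := by rw [hal]; positivity
  set Th : ℝ → ℕ → ℝ := fun a i => line rho G (T a) a i with hTh
  have hiter : ∀ i : ℕ, Continuous fun a => (leafMap rho G (T a))^[i] a := by
    intro i
    induction i with
    | zero => exact continuous_id
    | succ n ih =>
      simp only [Function.iterate_succ_apply']
      refine continuous_iff_continuousAt.2 fun a => ?_
      exact ContinuousAt.comp (g := fun p : ℝ × ℝ => leafMap rho G p.1 p.2)
        (f := fun a => (T a, (leafMap rho G (T a))^[n] a)) (L.continuousAt_map (hT a) _)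
        (hTc.continuousAt.prodMk ih.continuousAt)
  have hThc : ∀ i, Continuous fun a => Th a i := by
    intro i
    refine (hiter i).add ?_
    refine continuous_iff_continuousAt.2 fun a => ?_
    exact ContinuousAt.comp (g := fun p : ℝ × ℝ => G p.1 p.2)
      (f := fun a => (T a, (leafMap rho G (T a))^[i] a))
      (L.cont.continuousAt ((isOpen_Ioo.prod isOpen_univ).mem_nhds ⟨hT a, mem_univ _⟩))
      (hTc.continuousAt.prodMk (hiter i).continuousAt)
  have hper : ∀ a i, Th a (i + (m + 1)) = Th a i + 2 * π := fun a i =>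
    line_period L (hT a) (eT a) i
  have hdev : ∀ a i, i < m + 1 → |Th a i - Th a 0 - i * al| ≤ B := fun a i hi =>
    line_dev L (hT a) hq (eT a) he i hi
  have hsol : ∀ s0, ∃ a, (∀ i, i < m + 1 → |Th a i - s0 - i * al| ≤ 2 * B) ∧
      ∑ i ∈ Finset.range (m + 1), Real.sin (Th a i - s0 - i * al) = 0 := by
    intro s0
    set cl : ℝ → ℝ := fun x => max (-1) (min 1 x) with hcl
    set F : ℝ → ℝ := fun a => ∑ i ∈ Finset.range (m + 1), Real.sin (cl (Th a i - s0 - i * al)) with hF
    have hFc : Continuous F := by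
      refine continuous_finset_sum _ fun i _ => Real.continuous_sin.comp ?_
      exact continuous_const.max (continuous_const.min (((hThc i).sub continuous_const).sub
        continuous_const))
    have hsin1 : ∀ x : ℝ, 0 < x → x ≤ 1 → 0 < Real.sin x := fun x h1 h2 =>
      Real.sin_pos_of_pos_of_lt_pi h1 (by linarith [Real.two_le_pi])
    have hr0 : ∀ a, Th a 0 - a ∈ Ioo 0 π := fun a => by
      simp only [hTh, line, Function.iterate_zero, id, add_sub_cancel_left]
      exact (L.range _ (hT a) a).1
    have hlo : F (s0 - π - 2) < 0 := by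
      refine Finset.sum_neg (fun i hi => ?_) ⟨0, by simp⟩
      have := abs_le.1 (hdev (s0 - π - 2) i (Finset.mem_range.1 hi))
      have := (hr0 (s0 - π - 2)).2
      have e1 : cl (Th (s0 - π - 2) i - s0 - i * al) < 0 :=
        max_lt (by norm_num) (lt_of_le_of_lt (min_le_right _ _) (by linarith))
      have e2 : -1 ≤ cl (Th (s0 - π - 2) i - s0 - i * al) := le_max_left _ _
      have := hsin1 _ (neg_pos.2 e1) (by linarith)
      rw [Real.sin_neg] at this
      linarith
    have hhi : 0 < F (s0 + 2) := by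
      refine Finset.sum_pos (fun i hi => ?_) ⟨0, by simp⟩
      have := abs_le.1 (hdev (s0 + 2) i (Finset.mem_range.1 hi))
      have := (hr0 (s0 + 2)).1
      exact hsin1 _ (lt_of_lt_of_le (lt_min one_pos (by linarith)) (le_max_right _ _))
        (max_le (by norm_num) (min_le_left _ _))
    obtain ⟨a, -, ha⟩ := intermediate_value_Ioo (by linarith [Real.pi_pos]) hFc.continuousOn ⟨hlo, hhi⟩
    have hB0 : 0 ≤ B := (abs_nonneg _).trans (hdev a 0 (by omega))
    have h0 : |Th a 0 - s0| ≤ B := by
      by_contra hc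
      rcases lt_abs.1 (not_le.1 hc) with h | h
      · have : 0 < F a := by
          refine Finset.sum_pos (fun i hi => ?_) ⟨0, by simp⟩
          have := abs_le.1 (hdev a i (Finset.mem_range.1 hi))
          exact hsin1 _ (lt_of_lt_of_le (lt_min one_pos (by linarith)) (le_max_right _ _))
            (max_le (by norm_num) (min_le_left _ _))
        linarith
      · have : F a < 0 := by
          refine Finset.sum_neg (fun i hi => ?_) ⟨0, by simp⟩
          have := abs_le.1 (hdev a i (Finset.mem_range.1 hi))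
          have e1 : cl (Th a i - s0 - i * al) < 0 :=
            max_lt (by norm_num) (lt_of_le_of_lt (min_le_right _ _) (by linarith))
          have e2 : -1 ≤ cl (Th a i - s0 - i * al) := le_max_left _ _
          have := hsin1 _ (neg_pos.2 e1) (by linarith)
          rw [Real.sin_neg] at this
          linarith
        linarith
    have hall : ∀ i, i < m + 1 → |Th a i - s0 - i * al| ≤ 2 * B := fun i hi => by
      have := abs_le.1 (hdev a i hi)
      have := abs_le.1 h0
      rw [abs_le]; constructor <;> linarith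
    refine ⟨a, hall, ?_⟩
    rw [← ha]
    refine Finset.sum_congr rfl fun i hi => ?_
    have := abs_le.1 (hall i (Finset.mem_range.1 hi))
    simp only [hcl]
    rw [min_eq_right (by linarith), max_eq_right (by linarith)]
  choose A hA1 hA2 using hsol
  set eps : ℝ → ℕ → ℝ := fun s0 i => Th (A s0) i - s0 - i * al with heps
  have heper : ∀ s0, Function.Periodic (eps s0) (m + 1) := fun s0 i => by
    simp only [heps, hper, hal]; push_cast; field_simp; ring
  have hemod : ∀ s0 i, eps s0 i = eps s0 (i % (m + 1)) := fun s0 i => ((heper s0).map_mod_nat i).symm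
  set rep : ℝ → ℝ := fun s => s - ⌊s / al⌋ * al with hrep
  set idx : ℤ → ℕ := fun j => (j % ((m + 1 : ℕ) : ℤ)).toNat with hidx
  set phi : ℝ → ℝ := fun s => eps (rep s) (idx ⌊s / al⌋) with hphi
  have hidxlt : ∀ j, idx j < m + 1 := fun j => by
    have := Int.emod_lt_of_pos j (show (0:ℤ) < ((m + 1 : ℕ) : ℤ) by omega)
    simp only [hidx]; omega
  have hshift : ∀ (s : ℝ) (l : ℤ) (i : ℕ), (i : ℤ) % ((m + 1 : ℕ) : ℤ) =
      (⌊s / al⌋ + l) % ((m + 1 : ℕ) : ℤ) → phi (s + l * al) = eps (rep s) i := by
    intro s l i hi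
    have e1 : ⌊(s + l * al) / al⌋ = ⌊s / al⌋ + l := by
      rw [add_div, mul_div_assoc, div_self hal0.ne', mul_one, Int.floor_add_intCast]
    have e2 : rep (s + l * al) = rep s := by simp only [hrep, e1]; push_cast; ring
    simp only [hphi, e1, e2, hidx, ← hi]
    rw [hemod _ i, show ((i : ℤ) % ((m + 1 : ℕ) : ℤ)) = ((i % (m + 1) : ℕ) : ℤ) by omega,
      Int.toNat_natCast]
  refine ⟨phi, fun s => ?_, fun s => hA1 _ _ (hidxlt _), fun s => ?_, fun s => ?_⟩
  · have e : phi s = eps (rep s) (idx ⌊s / al⌋) := rfl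
    have hq' : ((m + 1 : ℕ) : ℝ) * al = 2 * π := by rw [hal]; field_simp
    have := hshift s ((m + 1 : ℕ) : ℤ) (idx ⌊s / al⌋) (by
      rw [Int.add_emod_right, show ((idx ⌊s / al⌋ : ℕ) : ℤ) = ⌊s / al⌋ % ((m + 1 : ℕ) : ℤ) from
        Int.toNat_of_nonneg (Int.emod_nonneg _ (by omega)), Int.emod_emod])
    rw [Int.cast_natCast, hq'] at this
    rw [this, e]
  · set j0 := idx ⌊s / al⌋ with hj0
    have hj : ∀ i : ℕ, phi (s + i * al) = eps (rep s) (j0 + i) := by
      intro i
      have := hshift s (i : ℤ) (j0 + i) (by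
        have h1 : (j0 : ℤ) = ⌊s / al⌋ % ((m + 1 : ℕ) : ℤ) :=
          Int.toNat_of_nonneg (Int.emod_nonneg _ (by omega))
        push_cast; rw [h1]; push_cast; rw [Int.emod_add_emod])
      simpa using this
    rw [Finset.sum_congr rfl fun i _ => by rw [hj i]]
    have hshift' : ∀ k : ℕ, ∑ i ∈ Finset.range (m + 1), Real.sin (eps (rep s) (k + i)) = 0 := by
      intro k
      induction k with
      | zero => simpa using hA2 (rep s)
      | succ n ih =>
        have e1 := Finset.sum_range_succ' (fun i => Real.sin (eps (rep s) (n + i))) (m + 1)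
        have e2 := Finset.sum_range_succ (fun i => Real.sin (eps (rep s) (n + i))) (m + 1)
        simp only [add_zero, show eps (rep s) (n + (m + 1)) = eps (rep s) n from heper _ n] at e1 e2
        rw [Finset.sum_congr rfl fun i _ => by rw [show n + 1 + i = n + (i + 1) by ring]]
        linarith
    exact hshift' j0
  · set j0 := idx ⌊s / al⌋ with hj0
    have h1 : (j0 : ℤ) = ⌊s / al⌋ % ((m + 1 : ℕ) : ℤ) :=
      Int.toNat_of_nonneg (Int.emod_nonneg _ (by omega))
    have p0 : phi s = eps (rep s) (j0 + m + 1) := by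
      have := hshift s 0 (j0 + m + 1) (by
        rw [show ((j0 + m + 1 : ℕ) : ℤ) = (j0 : ℤ) + ((m + 1 : ℕ) : ℤ) by push_cast; ring,
          Int.add_emod_right, h1, Int.emod_emod, add_zero])
      simpa using this
    have p1 : phi (s + 2 * π / ((m + 1 : ℕ) : ℝ)) = eps (rep s) (j0 + m + 2) := by
      have := hshift s 1 (j0 + m + 2) (by
        rw [show ((j0 + m + 2 : ℕ) : ℤ) = (j0 : ℤ) + 1 + ((m + 1 : ℕ) : ℤ) by push_cast; ring,
          Int.add_emod_right, h1, Int.emod_add_emod])
      rw [Int.cast_one, one_mul] at this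
      exact this
    have p2 : phi (s - 2 * π / ((m + 1 : ℕ) : ℝ)) = eps (rep s) (j0 + m) := by
      have := hshift s (-1) (j0 + m) (by
        rw [show ((j0 + m : ℕ) : ℤ) = (j0 : ℤ) + (-1) + ((m + 1 : ℕ) : ℤ) by push_cast; ring,
          Int.add_emod_right, h1, Int.emod_add_emod])
      rw [Int.cast_neg, Int.cast_one, neg_one_mul, ← sub_eq_add_neg] at this
      exact this
    obtain ⟨l, hl⟩ : ∃ l : ℤ, ⌊s / al⌋ = (j0 : ℤ) + l * ((m + 1 : ℕ) : ℤ) :=
      ⟨⌊s / al⌋ / ((m + 1 : ℕ) : ℤ), by rw [h1, mul_comm]; exact (Int.emod_add_mul_ediv _ _).symm⟩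
    have halk : ((m : ℝ) + 1) * al = 2 * π := by rw [hal]; push_cast; field_simp
    have hhalf : π / ((m + 1 : ℕ) : ℝ) = al / 2 := by rw [hal]; ring
    have hs : s = rep s + (j0 : ℝ) * al + (l : ℝ) * (2 * π) := by
      have hl' := congrArg (Int.cast : ℤ → ℝ) hl
      push_cast at hl'
      have hr : rep s = s - (⌊s / al⌋ : ℝ) * al := rfl
      linear_combination -hr + al * hl' + (l : ℝ) * halk
    have heq := line_equation L (hT (A (rep s))) (A (rep s)) (j0 + m)
    have c : ∀ i : ℕ, line rho G (T (A (rep s))) (A (rep s)) (j0 + m + i) =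
        rep s + ((j0 + m + i : ℕ) : ℝ) * al + eps (rep s) (j0 + m + i) := fun i => by
      simp only [heps, hTh]; ring
    rw [c 1, c 2, show line rho G (T (A (rep s))) (A (rep s)) (j0 + m) = _ from c 0] at heq
    have key : ∀ (l : ℤ) (th x y : ℝ), height rho (th + l * (2 * π)) (x + l * (2 * π)) (y + l * (2 * π)) =
        height rho th x y := fun l th x y =>
      height_shift h (h.2.2.1.int_mul l) th x y
    rw [← key (l - 1)] at heq
    rw [p0, p1, p2]
    rw [hhalf]
    convert heq using 2
    · push_cast; linear_combination hs - halk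
    · push_cast; linear_combination hs - halk
    · push_cast; linear_combination hs - halk

end Vale.Agent.P097.Trig
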