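import Vale.Agent.P097.Trig.Series

/-!
Expansions of the orbit equation modulo powers of `x - 1`, and logarithmic derivatives in
prime characteristic.
-/

noncomputable section

namespace Vale.Agent.P097.Trig

open PowerSeries Finset

variable {A : Type*} [CommRing A]

theorem exists_rescale_expand (p c : A) (f : A⟦X⟧) :
    ∃ g : A⟦X⟧, rescale (1 + p * c) f = f + C (p * c) * euler f + C (p ^ 2) * g := by
  have h : ∀ j : ℕ, ∃ y : A, (1 + p * c) ^ j = 1 + (j : A) * (p * c) + p ^ 2 * y := by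
    intro j
    induction j with
    | zero => exact ⟨0, by simp⟩
    | succ n ih =>
      obtain ⟨y, hy⟩ := ih
      exact ⟨y * (1 + p * c) + (n : A) * c ^ 2, by rw [pow_succ, hy]; push_cast; ring⟩
  choose y hy using h
  refine ⟨mk fun j => y j * coeff j f, ?_⟩
  ext j
  simp only [coeff_rescale, map_add, coeff_C_mul, coeff_euler, coeff_mk, hy]
  ring

theorem pow_two_terms (k : ℕ) :
    ∃ c : A, ∀ e : A, e ^ 3 = 0 → (1 + e) ^ k = 1 + (k : A) * e + c * e ^ 2 := by
  induction k with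
  | zero => exact ⟨0, by simp⟩
  | succ n ih =>
    obtain ⟨c, hc⟩ := ih
    refine ⟨c + n, fun e he => ?_⟩
    rw [pow_succ, hc e he]
    push_cast
    linear_combination c * he

/-- The two sides of the orbit equation agree modulo the cube of `x - 1`. -/
theorem side_eq_side {p : A} (hp : p ^ 3 = 0) (N : ℕ) (a : ℕ → A) (x x' : A) (hx : x = 1 + p)
    (hx' : x' = 1 - p + p ^ 2) (P Q : A⟦X⟧) (hPQ : P * Q = 1) :
    side N a x x' P Q = side N a x' x P Q := by
  set E := euler P * Q with hE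
  have hxx : x * x' = 1 := by subst hx hx'; linear_combination hp
  obtain ⟨g1, hg1⟩ := exists_rescale_expand p (2 + p) P
  obtain ⟨g2, hg2⟩ := exists_rescale_expand p ((-1 + p) * (2 - p + p ^ 2)) P
  have w1 : x ^ 2 = 1 + p * (2 + p) := by subst hx; ring
  have w2 : x' ^ 2 = 1 + p * ((-1 + p) * (2 - p + p ^ 2)) := by subst hx'; ring
  rw [← w1] at hg1; rw [← w2] at hg2
  set T := C p with hT
  have hT3 : T ^ 3 = 0 := by rw [hT, ← map_pow, hp, map_zero]
  obtain ⟨U, hU, hU'⟩ : ∃ U : A⟦X⟧, ratio x (x ^ 2) P Q = 1 + T * U ∧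
      ∃ U' : A⟦X⟧, ratio x' (x' ^ 2) P Q = 1 + T * U' ∧ ∃ V, U + U' = T * V := by
    refine ⟨(1 + 2 * E) + T * (E + (1 + T) * (Q * g1) + (2 + T) * E), ?_,
      -(1 + 2 * E) + T * (1 + (1 - T + T ^ 2) * (Q * g2) + 2 * E +
        ((-1 + T) * (-1 + T) + T) * E + (-1 + T) * ((-1 + T) * (2 - T + T ^ 2)) * E), ?_,
      (E + (1 + T) * (Q * g1) + (2 + T) * E) + (1 + (1 - T + T ^ 2) * (Q * g2) + 2 * E +
        ((-1 + T) * (-1 + T) + T) * E + (-1 + T) * ((-1 + T) * (2 - T + T ^ 2)) * E), by ring⟩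
    · rw [ratio, hg1, hE, hx, hT]
      simp only [map_add, map_one, map_mul, map_pow, map_ofNat]
      linear_combination (1 + C p) * hPQ
    · rw [ratio, hg2, hE, hx', hT]
      simp only [map_add, map_sub, map_neg, map_one, map_mul, map_pow, map_ofNat]
      linear_combination (1 - C p + C p ^ 2) * hPQ + (-(euler P * Q)) * hT3
  obtain ⟨U', hU', V, hV⟩ := hU'
  have e3 : ∀ W : A⟦X⟧, (T * W) ^ 3 = 0 := fun W => by rw [mul_pow, hT3, zero_mul]
  have sq : (T * U) ^ 2 = (T * U') ^ 2 := by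
    linear_combination (T ^ 2 * (U - U')) * hV + (V * (U - U')) * hT3
  have inv : ∀ {r r' e : A⟦X⟧}, r = 1 + e → e ^ 3 = 0 → r * r' = 1 → r' + r = 2 + e ^ 2 := by
    intro r r' e h1 h3 h2
    subst h1
    linear_combination (1 - e + e ^ 2) * h2 - r' * h3
  have h1 : ratio x (x ^ 2) P Q * ratio x' (x ^ 2) Q P = 1 := by
    have := congrArg (rescale (x ^ 2)) hPQ
    rw [map_mul, map_one] at this
    simp only [ratio]
    linear_combination (P * Q * rescale (x ^ 2) P * rescale (x ^ 2) Q) *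
      ((map_mul (C (R := A)) x x').symm.trans (by rw [hxx, map_one])) +
      (rescale (x ^ 2) P * rescale (x ^ 2) Q) * hPQ + this
  have h2 : ratio x' (x' ^ 2) P Q * ratio x (x' ^ 2) Q P = 1 := by
    have := congrArg (rescale (x' ^ 2)) hPQ
    rw [map_mul, map_one] at this
    simp only [ratio]
    linear_combination (P * Q * rescale (x' ^ 2) P * rescale (x' ^ 2) Q) *
      ((map_mul (C (R := A)) x x').symm.trans (by rw [hxx, map_one])) +
      (rescale (x' ^ 2) P * rescale (x' ^ 2) Q) * hPQ + this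
  have g : ∀ n : ℕ, 2 ≤ n →
      ((n + 1 : ℕ) : A⟦X⟧) * (1 + T * U) ^ (n - 1) - ((n - 1 : ℕ) : A⟦X⟧) * (1 + T * U) ^ (n + 1) =
      ((n + 1 : ℕ) : A⟦X⟧) * (1 + T * U') ^ (n - 1) -
        ((n - 1 : ℕ) : A⟦X⟧) * (1 + T * U') ^ (n + 1) := by
    intro n _
    obtain ⟨c, hc⟩ := pow_two_terms (A := A⟦X⟧) (n - 1)
    obtain ⟨d, hd⟩ := pow_two_terms (A := A⟦X⟧) (n + 1)
    rw [hc _ (e3 U), hc _ (e3 U'), hd _ (e3 U), hd _ (e3 U')]
    linear_combination (((n + 1 : ℕ) : A⟦X⟧) * c - ((n - 1 : ℕ) : A⟦X⟧) * d) * sq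
  rw [side, side, inv hU (e3 U) h1, inv hU' (e3 U') h2, sq, hU, hU']
  refine congrArg _ (Finset.sum_congr rfl fun n hn => ?_)
  rw [g n (Finset.mem_Icc.1 hn).1]

theorem six_pow {p : A} (hp : p ^ 4 = 0) (k : ℕ) :
    6 * (1 + p) ^ k = 6 + 6 * (k : A) * p + 3 * ((k : A) * ((k : A) - 1)) * p ^ 2 +
      (k : A) * ((k : A) - 1) * ((k : A) - 2) * p ^ 3 := by
  induction k with
  | zero => simp
  | succ n ih =>
    rw [pow_succ, ← mul_assoc, ih]
    push_cast
    linear_combination ((n : A) * ((n : A) - 1) * ((n : A) - 2)) * hp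

theorem six_kernel {p : A} (hp : p ^ 4 = 0) (x x' : A) (hx : x = 1 + p) (hxx : x * x' = 1)
    (n : ℕ) (hn : 2 ≤ n) :
    6 * ((((n + 1 : ℕ) : A) * x ^ (n - 1) - ((n - 1 : ℕ) : A) * x ^ (n + 1)) -
      (((n + 1 : ℕ) : A) * x' ^ (n - 1) - ((n - 1 : ℕ) : A) * x' ^ (n + 1))) =
      -(8 * (n : A) * ((n : A) ^ 2 - 1)) * p ^ 3 := by
  obtain ⟨m, rfl⟩ : ∃ m, n = m + 1 := ⟨n - 1, by omega⟩
  have hu : IsUnit (x ^ (m + 2)) := (IsUnit.of_mul_eq_one x' hxx).pow _
  refine hu.mul_left_cancel ?_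
  have a1 : x ^ (m + 2) * x ^ m = x ^ (2 * m + 2) := by rw [← pow_add]; ring_nf
  have a2 : x ^ (m + 2) * x ^ (m + 2) = x ^ (2 * m + 4) := by rw [← pow_add]; ring_nf
  have a3 : x ^ (m + 2) * x' ^ m = x ^ 2 := by
    rw [show m + 2 = 2 + m by ring, pow_add, mul_assoc, ← mul_pow, hxx, one_pow, mul_one]
  have a4 : x ^ (m + 2) * x' ^ (m + 2) = 1 := by rw [← mul_pow, hxx, one_pow]
  have b1 := six_pow hp (2 * m + 2)
  have b2 := six_pow hp (2 * m + 4)
  have b3 := six_pow hp 2
  have b0 : x ^ (m + 2) * p ^ 3 = p ^ 3 := by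
    obtain ⟨y, hy⟩ : p ∣ x ^ (m + 2) - 1 := by
      have := sub_dvd_pow_sub_pow x 1 (m + 2)
      rwa [one_pow, show x - 1 = p by rw [hx]; ring] at this
    linear_combination p ^ 3 * hy + y * hp
  rw [← hx] at b1 b2 b3
  simp only [show m + 1 - 1 = m from rfl, show m + 1 + 1 = m + 2 from rfl]
  push_cast at *
  linear_combination (6 * ((m : A) + 2)) * a1 - (6 * (m : A)) * a2 - (6 * ((m : A) + 2)) * a3
    + (6 * (m : A)) * a4 + ((m : A) + 2) * b1 - (m : A) * b2 - ((m : A) + 2) * b3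
    + (8 * ((m : A) + 1) * (((m : A) + 1) ^ 2 - 1)) * b0

/-- The edge length modulo the square of `x - 1`. -/
theorem edge_mod_sq {p : A} (hp : p ^ 2 = 0) (N : ℕ) (a : ℕ → A) (x x' : A) (hx : x = 1 + p)
    (hxx : x * x' = 1) (P Q : A⟦X⟧) (hPQ : P * Q = 1) :
    edge N a x x' P Q = -(2 * C p * ((1 + 2 * (euler P * Q)) *
      (1 + ∑ n ∈ Icc 2 N, C (a n) * X ^ n * P ^ (2 * n)))) := by
  obtain ⟨g1, hg1⟩ := exists_rescale_expand p 2 P
  have w1 : x ^ 2 = 1 + p * 2 := by subst hx; linear_combination hp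
  rw [← w1] at hg1
  set T := C p with hT
  have hT2 : T ^ 2 = 0 := by rw [hT, ← map_pow, hp, map_zero]
  set U := 1 + 2 * (euler P * Q) with hU
  have hr : ratio x (x ^ 2) P Q = 1 + T * U := by
    rw [ratio, hg1, hp, map_zero, hx, hU, hT]
    simp only [map_add, map_one, map_mul, map_ofNat]
    linear_combination (1 + C p) * hPQ + (2 * (euler P * Q)) * hT2
  have h1 : ratio x (x ^ 2) P Q * ratio x' (x ^ 2) Q P = 1 := by
    have := congrArg (rescale (x ^ 2)) hPQ
    rw [map_mul, map_one] at this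
    simp only [ratio]
    linear_combination (P * Q * rescale (x ^ 2) P * rescale (x ^ 2) Q) *
      ((map_mul (C (R := A)) x x').symm.trans (by rw [hxx, map_one])) +
      (rescale (x ^ 2) P * rescale (x ^ 2) Q) * hPQ + this
  have hr' : ratio x' (x ^ 2) Q P = 1 - T * U := by
    rw [hr] at h1
    linear_combination (1 - T * U) * h1 + (ratio x' (x ^ 2) Q P * U ^ 2) * hT2
  have hpow : ∀ k : ℕ, (1 + T * U) ^ k = 1 + (k : A⟦X⟧) * (T * U) := by
    intro k
    induction k with
    | zero => simp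
    | succ n ih => rw [pow_succ, ih]; push_cast; linear_combination ((n : A⟦X⟧) * U ^ 2) * hT2
  rw [edge, hr, hr']
  simp only [hpow, mul_add, mul_one, Finset.mul_sum]
  rw [neg_add, ← Finset.sum_neg_distrib]
  refine congrArg₂ (· + ·) (by ring) (Finset.sum_congr rfl fun n hn => ?_)
  obtain ⟨m, rfl⟩ : ∃ m, n = m + 1 := ⟨n - 1, by have := (Finset.mem_Icc.1 hn).1; omega⟩
  simp only [show m + 1 - 1 = m from rfl]
  push_cast; ring

section LogDeriv

variable {k : Type*} [Field k] (q : ℕ) [CharP k q] [hq : Fact q.Prime]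

include hq in
theorem logDeriv_single (a : k) (i : ℕ) (hi : 0 < i) (m : ℕ) :
    ∃ G : k⟦X⟧, G * (1 + C a * X ^ i) = euler (1 + C a * X ^ i) ∧
      coeff (q * m) G = coeff m G ^ q := by
  refine ⟨mk fun j => if i ∣ j ∧ j ≠ 0 then (i : k) * -((-a) ^ (j / i)) else 0, ?_, ?_⟩
  · have he : euler (1 + C a * X ^ i) = C (a * i) * X ^ i := by
      rw [euler_add, euler_one, zero_add, euler_mul, euler_C, zero_mul, zero_add, euler_X_pow,
        map_mul, map_natCast, mul_assoc]
    ext j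
    rw [he, mul_add, mul_one, mul_left_comm, map_add, coeff_C_mul, coeff_C_mul, coeff_mul_X_pow',
      coeff_X_pow]
    simp only [coeff_mk]
    by_cases hij : i ∣ j
    · obtain ⟨c, rfl⟩ := hij
      rcases c with _ | _ | c
      · simp [hi.ne, hi.ne']
      · simp [hi.ne', Nat.div_self hi]; ring
      · have h1 : i * (c + 1 + 1) / i = c + 2 := Nat.mul_div_cancel_left _ hi
        have h2 : i ≤ i * (c + 1 + 1) := Nat.le_mul_of_pos_right _ (by omega)
        have h3 : i * (c + 1 + 1) - i = i * (c + 1) := by rw [Nat.mul_succ i (c + 1)]; omega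
        have h4 : i * (c + 1) / i = c + 1 := Nat.mul_div_cancel_left _ hi
        have h5 : i * (c + 1 + 1) ≠ i := by intro h; nlinarith
        simp [h1, h2, h3, h4, h5, hi.ne']
        ring
    · have h5 : j ≠ i := fun h => hij (h ▸ dvd_rfl)
      simp only [hij, h5, false_and, if_false, zero_add, mul_zero]
      by_cases h1 : i ≤ j
      · have h6 : ¬ i ∣ j - i := fun h => hij (by
          simpa [Nat.sub_add_cancel h1] using h.add (dvd_refl i))
        simp [h1, h6]
      · simp [h1]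
  · simp only [coeff_mk]
    by_cases hqi : q ∣ i
    · have : (i : k) = 0 := (CharP.cast_eq_zero_iff k q i).2 hqi
      simp [this, hq.out.ne_zero]
    · have hco : Nat.Coprime i q := ((hq.out.coprime_iff_not_dvd).2 hqi).symm
      by_cases him : i ∣ m
      · rcases eq_or_ne m 0 with rfl | hm
        · simp [hq.out.ne_zero]
        have h1 : i ∣ q * m := him.mul_left q
        rw [if_pos ⟨h1, Nat.mul_ne_zero hq.out.ne_zero hm⟩, if_pos ⟨him, hm⟩, Nat.mul_div_assoc q him,
          mul_pow, pow_mul' (-a) q]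
        have hfrob : ((i : k)) ^ q = (i : k) := by
          rw [← frobenius_def, map_natCast]
        rw [hfrob, ← frobenius_def q (-((-a) ^ (m / i))), map_neg, frobenius_def]
      · have h1 : ¬ i ∣ q * m := fun h => him (hco.dvd_of_dvd_mul_left h)
        simp [him, h1, hq.out.ne_zero]

include hq in
/-- In characteristic `q`, the coefficient of a logarithmic derivative at `q m` is the `q`th power
of the one at `m`. -/
theorem logDeriv_coeff (P Q : k⟦X⟧) (hPQ : P * Q = 1) (h0 : constantCoeff P = 1) (m : ℕ) :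
    coeff (q * m) (euler P * Q) = coeff m (euler P * Q) ^ q := by
  suffices h : ∀ d i : ℕ, q * m < i + d → ∀ P Q : k⟦X⟧, P * Q = 1 → X ^ (i + 1) ∣ P - 1 →
      coeff (q * m) (euler P * Q) = coeff m (euler P * Q) ^ q by
    refine h (q * m + 1) 0 (by omega) P Q hPQ ?_
    rw [pow_one, X_dvd_iff]; simp [h0]
  intro d
  induction d with
  | zero =>
    intro i hi P Q hPQ hP
    obtain ⟨R, hR⟩ := hP
    have hz : ∀ j, j ≤ q * m → coeff j (euler P * Q) = 0 := by
      intro j hj
      refine (X_pow_dvd_iff.1 (dvd_mul_of_dvd_left ?_ Q) j (by omega : j < i + 1))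
      refine X_pow_dvd_iff.2 fun l hl => ?_
      rw [coeff_euler, eq_add_of_sub_eq hR, map_add, coeff_X_pow_mul', if_neg (by omega), zero_add,
        coeff_one]
      split_ifs with h
      · subst h; simp
      · simp
    rw [hz _ le_rfl, hz _ (Nat.le_mul_of_pos_left m hq.out.pos), zero_pow hq.out.ne_zero]
  | succ d ih =>
    intro i hi P Q hPQ hP
    set a := coeff (i + 1) (P - 1) with ha
    obtain ⟨G, hG, hGm⟩ := logDeriv_single q a (i + 1) (Nat.succ_pos i) m
    set F := 1 + C a * X ^ (i + 1) with hF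
    have hF0 : constantCoeff F = ((1 : kˣ) : k) := by simp [hF]
    set F' := invOfUnit F 1 with hF'
    have hFF : F * F' = 1 := mul_invOfUnit F 1 hF0
    have hnew : X ^ (i + 1 + 1) ∣ P * F' - 1 := by
      have h2 : X ^ (i + 1 + 1) ∣ P - F := by
        refine X_pow_dvd_iff.2 fun l hl => ?_
        rw [hF, map_sub, map_add, coeff_C_mul_X_pow]
        rcases (Nat.lt_succ_iff.1 hl).lt_or_eq with h | h
        · have := X_pow_dvd_iff.1 hP l h
          rw [map_sub] at this
          rw [if_neg h.ne]; linear_combination this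
        · subst h; rw [if_pos rfl, ha, map_sub]; ring
      have : P * F' - 1 = F' * (P - F) := by linear_combination hFF
      rw [this]; exact h2.mul_left _
    have hrec := ih (i + 1) (by omega) (P * F') (Q * F)
      (by linear_combination F * F' * hPQ + hFF) hnew
    have hsum : euler P * Q = euler (P * F') * (Q * F) + G := by
      have h1 := congrArg euler hFF
      rw [euler_mul, euler_one, ← hG] at h1
      rw [euler_mul]
      linear_combination (-(euler P * Q)) * hFF - (P * Q) * h1 + (G * F * F') * hPQ + G * hFF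
    rw [hsum, map_add, map_add, hrec, hGm, add_pow_char]

end LogDeriv

end Vale.Agent.P097.Trig
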