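import Mathlib

/-!
Formal series for periodic orbits of a one-sided trigonometric billiard.
-/

noncomputable section

namespace Vale.Agent.P097.Trig

open PowerSeries Finset

variable {R S : Type*} [CommRing R] [CommRing S]

/-- The Euler derivation `X d/dX`. -/
def euler (f : R⟦X⟧) : R⟦X⟧ := PowerSeries.X * PowerSeries.derivative R f

theorem coeff_euler (f : R⟦X⟧) (j : ℕ) : coeff j (euler f) = (j : R) * coeff j f := by
  cases j with
  | zero => simp [euler, coeff_zero_eq_constantCoeff]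
  | succ n =>
    rw [euler, coeff_succ_X_mul, coeff_derivative]
    push_cast; ring

theorem euler_add (f g : R⟦X⟧) : euler (f + g) = euler f + euler g := by
  simp [euler, mul_add]

theorem euler_mul (f g : R⟦X⟧) : euler (f * g) = euler f * g + f * euler g := by
  simp only [euler, Derivation.leibniz, smul_eq_mul]; ring

theorem euler_C (c : R) : euler (C c) = 0 := by simp [euler]

theorem euler_one : euler (1 : R⟦X⟧) = 0 := by simp [euler]

theorem euler_pow (f : R⟦X⟧) (n : ℕ) : euler (f ^ n) = (n : R⟦X⟧) * f ^ (n - 1) * euler f := by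
  simp only [euler, Derivation.leibniz_pow, smul_eq_mul, nsmul_eq_mul]; ring

theorem euler_X_pow (n : ℕ) : euler ((X : R⟦X⟧) ^ n) = (n : R⟦X⟧) * X ^ n := by
  rcases n with _ | n
  · simp [euler]
  · rw [euler_pow, euler, derivative_X]; simp [pow_succ]; ring

theorem euler_X : euler (X : R⟦X⟧) = X := by simp [euler]

theorem euler_neg (f : R⟦X⟧) : euler (-f) = -euler f := by simp [euler]

theorem euler_sub (f g : R⟦X⟧) : euler (f - g) = euler f - euler g := by simp [euler, mul_sub]

theorem euler_sum {ι : Type*} (s : Finset ι) (f : ι → R⟦X⟧) :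
    euler (∑ i ∈ s, f i) = ∑ i ∈ s, euler (f i) := by
  simp [euler, Finset.mul_sum]

theorem rescale_euler (w : R) (f : R⟦X⟧) : rescale w (euler f) = euler (rescale w f) := by
  ext j; simp only [coeff_rescale, coeff_euler]; ring

theorem map_euler (h : R →+* S) (f : R⟦X⟧) : PowerSeries.map h (euler f) = euler (PowerSeries.map h f) := by
  ext j; simp [coeff_euler]

theorem map_rescale (h : R →+* S) (w : R) (f : R⟦X⟧) :
    PowerSeries.map h (rescale w f) = rescale (h w) (PowerSeries.map h f) := by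
  ext j; simp [coeff_rescale]

theorem rescale_C (w c : R) : rescale w (C c) = C c := by
  ext j; rcases j with _ | j <;> simp [coeff_rescale]

theorem rescale_rescale' (w w' : R) (hw : w * w' = 1) (f : R⟦X⟧) :
    rescale w (rescale w' f) = f := by
  ext j; rw [coeff_rescale, coeff_rescale, ← mul_assoc, ← mul_pow, hw]; simp

/-- The ratio of consecutive points. -/
def ratio (c w : R) (P Q : R⟦X⟧) : R⟦X⟧ := C c * Q * rescale w P

theorem map_ratio (h : R →+* S) (c w : R) (P Q : R⟦X⟧) :
    PowerSeries.map h (ratio c w P Q) =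
      ratio (h c) (h w) (PowerSeries.map h P) (PowerSeries.map h Q) := by
  simp [ratio, map_rescale]

/-- One side of the orbit equation. -/
def side (N : ℕ) (a : ℕ → R) (x x' : R) (P Q : R⟦X⟧) : R⟦X⟧ :=
  ratio x' (x ^ 2) Q P + ratio x (x ^ 2) P Q +
    ∑ n ∈ Icc 2 N, C (a n) * X ^ n * P ^ (2 * n) *
      (((n + 1 : ℕ) : R⟦X⟧) * ratio x (x ^ 2) P Q ^ (n - 1) -
        ((n - 1 : ℕ) : R⟦X⟧) * ratio x (x ^ 2) P Q ^ (n + 1))

/-- The length of one edge. -/
def edge (N : ℕ) (a : ℕ → R) (x x' : R) (P Q : R⟦X⟧) : R⟦X⟧ :=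
  ratio x' (x ^ 2) Q P - ratio x (x ^ 2) P Q +
    ∑ n ∈ Icc 2 N, C (a n) * X ^ n * P ^ (2 * n) *
      (ratio x (x ^ 2) P Q ^ (n - 1) - ratio x (x ^ 2) P Q ^ (n + 1))

theorem map_side (h : R →+* S) (N : ℕ) (a : ℕ → R) (x x' : R) (P Q : R⟦X⟧) :
    PowerSeries.map h (side N a x x' P Q) =
      side N (fun n => h (a n)) (h x) (h x') (PowerSeries.map h P) (PowerSeries.map h Q) := by
  simp [side, map_ratio, map_sum]

theorem map_edge (h : R →+* S) (N : ℕ) (a : ℕ → R) (x x' : R) (P Q : R⟦X⟧) :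
    PowerSeries.map h (edge N a x x' P Q) =
      edge N (fun n => h (a n)) (h x) (h x') (PowerSeries.map h P) (PowerSeries.map h Q) := by
  simp [edge, map_ratio, map_sum]

/-- The derivative of the length of one edge. -/
theorem euler_edge (N : ℕ) (a : ℕ → R) (x x' : R) (hx : x * x' = 1) (P Q : R⟦X⟧) (hPQ : P * Q = 1) :
    2 * euler (edge N a x x' P Q) =
      side N a x x' P Q * (1 + 2 * (euler P * Q)) -
        rescale (x ^ 2) (side N a x' x P Q * (1 + 2 * (euler P * Q))) := by
  set w := x ^ 2 with hw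
  have hw' : w * x' ^ 2 = 1 := by rw [hw, ← mul_pow, hx, one_pow]
  have hwr : rescale w P * rescale w Q = 1 := by rw [← map_mul, hPQ, map_one]
  have hl : ∀ P' Q' : R⟦X⟧, P' * Q' = 1 → euler Q' = -(euler P' * Q' * Q') := by
    intro P' Q' h
    have h1 := congrArg euler h
    rw [euler_mul, euler_one] at h1
    linear_combination Q' * h1 - euler Q' * h
  set L := euler P * Q with hL
  set L1 := rescale w L with hL1
  set r := ratio x w P Q with hr
  set r' := ratio x' w Q P with hr'
  have hC : C x * C x' = (1 : R⟦X⟧) := by rw [← map_mul, hx, map_one]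
  have hrr : r * r' = 1 := by
    rw [hr, hr']; simp only [ratio]
    linear_combination (P * Q * rescale w P * rescale w Q) * hC + (rescale w P * rescale w Q) * hPQ + hwr
  have hR1 : euler (rescale w P) = rescale w P * L1 := by
    rw [hL1, hL, map_mul, rescale_euler]
    linear_combination (-euler (rescale w P)) * hwr
  have hP1 : euler P = P * L := by rw [hL]; linear_combination (-euler P) * hPQ
  have hr1 : euler r = r * (L1 - L) := by
    rw [hr]; simp only [ratio, euler_mul, euler_C, hR1, hl P Q hPQ, hP1]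
    linear_combination (-(C x * rescale w P * Q * L)) * hPQ
  have hr1' : euler r' = -(r' * (L1 - L)) := by
    rw [hr']; simp only [ratio, euler_mul, euler_C, hl _ _ hwr, hR1, hP1]
    linear_combination (-(C x' * P * rescale w Q * L1)) * hwr
  have e1 : rescale w (ratio x (x' ^ 2) Q P) = r := by
    simp only [ratio, map_mul, rescale_C, rescale_rescale' w _ hw', hr]; ring
  have e2 : rescale w (ratio x' (x' ^ 2) P Q) = r' := by
    simp only [ratio, map_mul, rescale_C, rescale_rescale' w _ hw', hr']; ring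
  have e3 : rescale w (1 + 2 * L) = 1 + 2 * L1 := by
    rw [hL1]; simp only [map_add, map_one, map_mul, map_ofNat]
  have e4 : C w * rescale w P ^ 2 = P ^ 2 * r ^ 2 := by
    rw [hr, hw]; simp only [ratio, map_pow]
    linear_combination (-(C x ^ 2 * rescale (x ^ 2) P ^ 2 * (P * Q + 1))) * hPQ
  clear_value L L1 r r'
  have term : ∀ n ∈ Icc 2 N,
      2 * euler (C (a n) * X ^ n * P ^ (2 * n) * (r ^ (n - 1) - r ^ (n + 1))) =
      C (a n) * X ^ n * P ^ (2 * n) *
          (((n + 1 : ℕ) : R⟦X⟧) * r ^ (n - 1) - ((n - 1 : ℕ) : R⟦X⟧) * r ^ (n + 1)) *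
          (1 + 2 * L) -
        rescale w (C (a n) * X ^ n * P ^ (2 * n) *
          (((n + 1 : ℕ) : R⟦X⟧) * ratio x' (x' ^ 2) P Q ^ (n - 1) -
            ((n - 1 : ℕ) : R⟦X⟧) * ratio x' (x' ^ 2) P Q ^ (n + 1))) * (1 + 2 * L1) := by
    intro n hn
    obtain ⟨m, rfl⟩ : ∃ m, n = m + 2 := ⟨n - 2, by have := (Finset.mem_Icc.1 hn).1; omega⟩
    simp only [map_mul, map_sub, map_pow, map_natCast, rescale_C, rescale_X, e2]
    have e5 : (C w * X) ^ (m + 2) * rescale w P ^ (2 * (m + 2)) =
        X ^ (m + 2) * P ^ (2 * (m + 2)) * (r ^ 2) ^ (m + 2) := by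
      rw [pow_mul, pow_mul, ← mul_pow, ← mul_pow, ← mul_pow]
      congr 1; linear_combination X * e4
    have c1 : r ^ 2 * r' = r := by linear_combination r * hrr
    have e6 : (r ^ 2) ^ (m + 2) * r' ^ (m + 1) = r ^ (m + 3) := by
      rw [← pow_mul, show 2 * (m + 2) = (m + 3) + (m + 1) by ring, pow_add, mul_assoc, ← mul_pow,
        hrr, one_pow, mul_one]
    have e7 : (r ^ 2) ^ (m + 2) * r' ^ (m + 3) = r ^ (m + 1) := by
      rw [← pow_mul, show 2 * (m + 2) = (m + 1) + (m + 3) by ring, pow_add, mul_assoc, ← mul_pow,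
        hrr, one_pow, mul_one]
    simp only [euler_mul, euler_C, euler_pow, euler_X, euler_sub, hr1, hP1]
    simp only [show m + 2 - 1 = m + 1 from rfl, show m + 2 + 1 = m + 3 from rfl,
      show m + 1 - 1 = m from rfl, show m + 3 - 1 = m + 2 from rfl,
      show 2 * (m + 2) - 1 = 2 * m + 3 by omega]
    push_cast
    linear_combination
      (-(C (a (m + 2)) * (1 + 2 * L1) *
        (((m : R⟦X⟧) + 3) * r' ^ (m + 1) - ((m : R⟦X⟧) + 1) * r' ^ (m + 3)))) * (-1 : R⟦X⟧) * e5
      + (C (a (m + 2)) * (1 + 2 * L1) * X ^ (m + 2) * P ^ (2 * (m + 2)) * ((m : R⟦X⟧) + 3)) * e6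
      - (C (a (m + 2)) * (1 + 2 * L1) * X ^ (m + 2) * P ^ (2 * (m + 2)) * ((m : R⟦X⟧) + 1)) * e7
  rw [map_mul, e3, edge, ← hw, ← hr, ← hr', euler_add, euler_sub, euler_sum, mul_add,
    Finset.mul_sum, Finset.sum_congr rfl term]
  simp only [side, ← hw, ← hr, ← hr', map_add, map_sum, e1, e2, Finset.sum_sub_distrib,
    ← Finset.sum_mul, hr1, hr1']
  ring

end Vale.Agent.P097.Trig
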